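import Mathlib.Analysis.Calculus.ContDiff.Defs
import Mathlib.Analysis.InnerProductSpace.PiL2
import Mathlib.Combinatorics.SimpleGraph.Metric
import Mathlib.Combinatorics.SimpleGraph.Finite
import Mathlib.MeasureTheory.Constructions.HaarToSphere
import Mathlib.MeasureTheory.Measure.Haar.InnerProductSpace
import Mathlib.MeasureTheory.Measure.Tilted

/-!
# P163: the `O(n)` model on a finite graph, boxes of the square lattice, infinite-volume states
-/

open MeasureTheory Filter Topology
open scoped RealInnerProductSpace ContDiff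

namespace Vale.Agent.N163X

/-- The unit sphere `S^{n-1}` of `R^n`. -/
abbrev Sph (n : ℕ) := Metric.sphere (0 : EuclideanSpace ℝ (Fin n)) 1

/-- The scalar product of two spins. -/
noncomputable def dot {n : ℕ} (s t : Sph n) : ℝ := ⟪s.1, t.1⟫

/-- Measures on the spin configurations over the set of sites `V`. -/
abbrev Law (n : ℕ) (V : Type) := Measure (V → Sph n)

/-- The spin correlation `⟨σ_x · σ_y⟩`. -/
noncomputable def corr {n : ℕ} {V : Type} (μ : Law n V) (x y : V) : ℝ := ∫ σ, dot (σ x) (σ y) ∂μ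

/-- The surface measure of the sphere. -/
noncomputable def surf (n : ℕ) : Measure (Sph n) := volume.toSphere

/-- The normalized uniform measure on the sphere. -/
noncomputable def unif (n : ℕ) : Measure (Sph n) := (surf n Set.univ)⁻¹ • surf n

open Classical in
/-- The `O(n)` model on a finite graph: density `Z⁻¹ exp (β ∑ σ_x · σ_y)`, one term for each edge
`{x, y}`, with respect to the product of the uniform measures. -/
noncomputable def model (n : ℕ) (β : ℝ) {V : Type} [Fintype V] (G : SimpleGraph V) : Law n V :=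
  (Measure.pi fun _ => unif n).tilted fun σ => β * ∑ e ∈ G.edgeFinset,
    Sym2.lift ⟨fun x y => dot (σ x) (σ y), fun _ _ => real_inner_comm _ _⟩ e

/-- The box `[a, b]` of the square lattice with its nearest-neighbour bonds; if `per` holds, also
with the bonds that join opposite sides. -/
def box (per : Bool) (a b : ℤ × ℤ) : SimpleGraph (Finset.Icc a b) :=
  SimpleGraph.fromRel fun x y => y.1 = x.1 + (1, 0) ∨ y.1 = x.1 + (0, 1) ∨
    per ∧ (x.1.1 = b.1 ∧ y.1 = (a.1, x.1.2) ∨ x.1.2 = b.2 ∧ y.1 = (x.1.1, a.2))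

/-- The boxes `[a k, b k]` exhaust the lattice, and the probability measure `μ` is the local weak
limit of the models in these boxes (`η` fills in the spins outside the box). -/
def IsLimit (n : ℕ) (β : ℝ) (per : ℕ → Bool) (a b : ℕ → ℤ × ℤ) (μ : Law n (ℤ × ℤ)) : Prop :=
  (∀ x, ∀ᶠ k in atTop, x ∈ Finset.Icc (a k) (b k)) ∧ IsProbabilityMeasure μ ∧
    ∃ η : ℤ × ℤ → Sph n, ∀ (F : (ℤ × ℤ → Sph n) → ℝ) (A : Finset (ℤ × ℤ)),
      Continuous F → DependsOn F A → Tendsto (fun k => ∫ σ, F (Function.extend Subtype.val σ η)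
        ∂model n β (box (per k) (a k) (b k))) atTop (𝓝 (∫ σ, F σ ∂μ))

/-- Infinite-volume states: limits along free or periodic boxes. -/
def IsState (n : ℕ) (β : ℝ) (μ : Law n (ℤ × ℤ)) : Prop :=
  ∃ per a b, IsLimit n β per a b μ

/-- Limits along periodic boxes with an even number of sites on each side. -/
def IsEvenState (n : ℕ) (β : ℝ) (μ : Law n (ℤ × ℤ)) : Prop :=
  ∃ a b, IsLimit n β (fun _ => true) a b μ ∧
    ∀ k, Even ((b k).1 - (a k).1 + 1) ∧ Even ((b k).2 - (a k).2 + 1)

/-- The Euclidean distance of two sites. -/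
noncomputable def len (x y : ℤ × ℤ) : ℝ := √((x.1 - y.1) ^ 2 + (x.2 - y.2) ^ 2)

/-- Functions on the plane with values in `R^n`. -/
abbrev Fn (n : ℕ) := ℝ × ℝ → EuclideanSpace ℝ (Fin n)

/-- Test functions: smooth with compact support. -/
def IsTest {n : ℕ} (f : Fn n) : Prop :=
  ContDiff ℝ ∞ f ∧ HasCompactSupport f

/-- The smeared field `c ε² ∑ f (ε x) · σ_x`. -/
noncomputable def field {n : ℕ} (c ε : ℝ) (f : Fn n) (σ : ℤ × ℤ → Sph n) : ℝ :=
  c * ε ^ 2 * ∑ᶠ x : ℤ × ℤ, ⟪f (ε * x.1, ε * x.2), (σ x).1⟫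

end Vale.Agent.N163X
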