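import Mathlib.Analysis.Convex.Integral
import Mathlib.Analysis.SpecialFunctions.Gaussian.GaussianIntegral
import Mathlib.Analysis.SpecialFunctions.Log.Basic
import Mathlib.Analysis.SpecialFunctions.Trigonometric.DerivHyp
import Mathlib.Combinatorics.SimpleGraph.Finite
import Mathlib.Combinatorics.SimpleGraph.Walk.Basic
import Mathlib.MeasureTheory.Integral.Layercake
import Mathlib.RingTheory.IntegralDomain
import Mathlib.Tactic
import Vale.Agent.N163X.Defs
import Vale.Agent.P163W43.Main

section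

/-!
# P163: two inequalities for ferromagnetic Ising sums
-/

open Finset Real

namespace Vale.Agent.N163X

section abstract

variable {Ω I : Type} [CommGroup Ω] [Fintype Ω]

/-- Unnormalized mean of the character `χ`. -/
noncomputable def Zs (D : Finset I) (c : I → Ω →* ℝ) (J : I → ℝ) (χ : Ω →* ℝ) : ℝ :=
  ∑ s, χ s * ∏ e ∈ D, exp (J e * c e s)

omit [Fintype Ω] in
theorem char_sq (h : ∀ s : Ω, s * s = 1) (χ : Ω →* ℝ) (s : Ω) : χ s * χ s = 1 := by
  rw [← map_mul, h, map_one]

omit [Fintype Ω] in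
theorem exp_char (h : ∀ s : Ω, s * s = 1) (χ : Ω →* ℝ) (s : Ω) (t : ℝ) :
    exp (t * χ s) = cosh t + sinh t * χ s := by
  rcases mul_self_eq_one_iff.1 (char_sq h χ s) with h1 | h1
  · rw [h1, mul_one, mul_one, cosh_add_sinh]
  · rw [h1, mul_neg_one, mul_neg_one, ← sub_eq_add_neg, cosh_sub_sinh]

theorem Zs_insert [DecidableEq I] (h : ∀ s : Ω, s * s = 1) {D : Finset I} {e : I} (he : e ∉ D)
    (c : I → Ω →* ℝ) (J : I → ℝ) (χ : Ω →* ℝ) :
    Zs (insert e D) c J χ = cosh (J e) * Zs D c J χ + sinh (J e) * Zs D c J (χ * c e) := by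
  simp only [Zs, prod_insert he, mul_sum, ← sum_add_distrib, exp_char h (c e), MonoidHom.mul_apply]
  exact sum_congr rfl fun s _ => by ring

theorem Zs_nonneg (h : ∀ s : Ω, s * s = 1) (c : I → Ω →* ℝ) {J : I → ℝ} (hJ : ∀ e, 0 ≤ J e)
    (D : Finset I) (χ : Ω →* ℝ) : 0 ≤ Zs D c J χ := by
  classical
  induction D using Finset.induction_on generalizing χ with
  | empty =>
    simp only [Zs, prod_empty, mul_one]
    by_cases h1 : χ = 1
    · simp [h1]
    · exact (sum_hom_units_eq_zero χ h1).ge
  | insert e D he ih =>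
    rw [Zs_insert h he]
    exact add_nonneg (mul_nonneg (cosh_pos _).le (ih _))
      (mul_nonneg (sinh_nonneg_iff.2 (hJ e)) (ih _))

theorem Zs_step (h : ∀ s : Ω, s * s = 1) (c : I → Ω →* ℝ) {J : I → ℝ} (hJ : ∀ e, 0 ≤ J e)
    {D : Finset I} {e : I} (he : e ∈ D) (χ : Ω →* ℝ) {τ : ℝ} (hτ : τ * cosh (J e) ≤ sinh (J e)) :
    τ * Zs D c J χ ≤ Zs D c J (χ * c e) := by
  classical
  have h0 := Zs_nonneg h c hJ D χ
  have hc := cosh_pos (J e)
  have h1 : χ * c e * c e = χ := by
    ext s
    simp only [MonoidHom.mul_apply, mul_assoc, char_sq h, mul_one]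
  rw [← insert_erase he] at h0 ⊢
  rw [Zs_insert h (notMem_erase e D)] at h0
  rw [Zs_insert h (notMem_erase e D), Zs_insert h (notMem_erase e D), h1]
  have h2 := Zs_nonneg h c hJ (D.erase e) (χ * c e)
  have h3 := cosh_sq_sub_sinh_sq (J e)
  refine le_of_mul_le_mul_left ?_ hc
  nlinarith [mul_le_mul_of_nonneg_right hτ h0]

end abstract

/-- The cost of a site with amplitude `a`. -/
noncomputable def psi (β a : ℝ) : ℝ := log (1 + 1 / (β * a ^ 2))

theorem psi_nonneg {β : ℝ} (hβ : 0 ≤ β) (a : ℝ) : 0 ≤ psi β a :=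
  log_nonneg (le_add_of_nonneg_right (by positivity))

theorem tanh_lower {β a b : ℝ} (hβ : 0 < β) (ha : 0 < a) (hb : 0 < b) :
    exp (-(psi β a + psi β b)) * cosh (β * (a * b)) ≤ sinh (β * (a * b)) := by
  set t := β * (a * b) with ht
  have ht0 : 0 < t := by positivity
  have h1 : t * cosh t ≤ (1 + t) * sinh t := by
    have h2 : exp (-t) * (1 + 2 * t) ≤ exp t := by
      have h3 := add_one_le_exp (2 * t)
      calc exp (-t) * (1 + 2 * t) ≤ exp (-t) * exp (2 * t) := by
            gcongr
            linarith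
        _ = exp t := by rw [← exp_add]; ring_nf
    rw [cosh_eq, sinh_eq]
    nlinarith
  have h4 : 1 + 1 / t ≤ exp (psi β a + psi β b) := by
    rw [exp_add, psi, psi, exp_log (by positivity), exp_log (by positivity)]
    have h5 : 1 / t ≤ 1 / (β * a ^ 2) + 1 / (β * b ^ 2) := by
      rw [ht, div_add_div _ _ (by positivity) (by positivity), div_le_div_iff₀ (by positivity)
        (by positivity)]
      have : 0 ≤ β ^ 2 * (a * b) * (a ^ 2 - a * b + b ^ 2) :=
        mul_nonneg (by positivity) (by nlinarith [sq_nonneg (a - b), mul_pos ha hb])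
      nlinarith
    have h6 : 0 ≤ 1 / (β * a ^ 2) * (1 / (β * b ^ 2)) := by positivity
    nlinarith
  rw [exp_neg, inv_mul_le_iff₀ (exp_pos _)]
  have hs : 0 ≤ sinh t := sinh_nonneg_iff.2 ht0.le
  refine le_trans ?_ (mul_le_mul_of_nonneg_right h4 hs)
  refine le_of_mul_le_mul_left ?_ ht0
  calc t * cosh t ≤ (1 + t) * sinh t := h1
    _ = _ := by field_simp; ring

theorem amp_lower {a : ℝ} (ha : 0 < a) : exp (-psi 1 a) ≤ a := by
  rw [psi, exp_neg, exp_log (by positivity), inv_le_iff_one_le_mul₀ (by positivity)]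
  have h : a * (1 + 1 / (1 * a ^ 2)) = (a ^ 2 + 1) / a := by field_simp
  rw [h, le_div_iff₀ ha]
  nlinarith [sq_nonneg (a - 1)]

section graph

variable {V : Type} [Fintype V] [DecidableEq V]

/-- The Ising spin at a site. -/
def ev (u : V) : (V → ℤˣ) →* ℝ where
  toFun s := ((s u : ℤ) : ℝ)
  map_one' := by simp
  map_mul' s t := by simp

/-- The product of the Ising spins at the ends of an edge. -/
noncomputable def evE : Sym2 V → (V → ℤˣ) →* ℝ :=
  Sym2.lift ⟨fun u v => ev u * ev v, fun _ _ => mul_comm _ _⟩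

/-- The coupling of an edge. -/
def cpl (β : ℝ) (a : V → ℝ) : Sym2 V → ℝ :=
  Sym2.lift ⟨fun u v => β * (a u * a v), fun _ _ => by ring⟩

omit [Fintype V] [DecidableEq V] in
theorem sgn_sq (s : V → ℤˣ) : s * s = 1 := funext fun u => Int.units_mul_self (s u)

/-- The cost of a walk. -/
noncomputable def cost {G : SimpleGraph V} (β : ℝ) (a : V → ℝ) :
    ∀ {x y : V}, G.Walk x y → ℝ
  | _, _, .nil => 0
  | x, _, .cons (v := z) _ p => psi β (a x) + psi β (a z) + cost β a p

theorem Zs_walk {G : SimpleGraph V} {D : Finset (Sym2 V)} (hD : ∀ x y, G.Adj x y → s(x, y) ∈ D)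
    {β : ℝ} (hβ : 0 < β) {a : V → ℝ} (ha : ∀ u, 0 < a u) {x y : V} (p : G.Walk x y) :
    exp (-cost β a p) * Zs D evE (cpl β a) 1 ≤ Zs D evE (cpl β a) (ev x * ev y) := by
  have hJ : ∀ e, 0 ≤ cpl β a e := fun e => by
    induction e using Sym2.ind with
    | h u v => exact mul_nonneg hβ.le (mul_pos (ha u) (ha v)).le
  induction p with
  | @nil u =>
    have : ev u * ev u = (1 : (V → ℤˣ) →* ℝ) := by
      refine MonoidHom.ext fun s => ?_
      exact char_sq sgn_sq (ev u) s
    simp [cost, this]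
  | @cons u v w h p ih =>
    have h1 : ev v * ev w * evE s(u, v) = (ev u * ev w : (V → ℤˣ) →* ℝ) := by
      refine MonoidHom.ext fun s => ?_
      have := char_sq sgn_sq (ev v) s
      simp only [evE, Sym2.lift_mk, MonoidHom.mul_apply]
      linear_combination (ev u s * ev w s) * this
    have h2 := Zs_step sgn_sq evE hJ (hD u v h) (ev v * ev w)
      (τ := exp (-(psi β (a u) + psi β (a v)))) (tanh_lower hβ (ha u) (ha v))
    rw [h1] at h2
    refine le_trans ?_ h2
    rw [cost, neg_add, exp_add, mul_assoc]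
    exact mul_le_mul_of_nonneg_left ih (exp_pos _).le

end graph

end Vale.Agent.N163X

end

section

/-!
# P163: a coordinate of a spin with rotation invariant law is rarely small
-/

open MeasureTheory Set Real
open scoped RealInnerProductSpace ENNReal Pointwise

namespace Vale.Agent.N163X

open Vale.Agent.P163 (isoSphere measurable_isoSphere)

variable {n : ℕ}

theorem unif_eq : unif n = P163.unif n := rfl

theorem unif_prob [NeZero n] : IsProbabilityMeasure (unif n) := P163.unif_isProb

theorem unif_mp (U : P163.E n ≃ₗᵢ[ℝ] P163.E n) :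
    MeasurePreserving (isoSphere U) (unif n) (unif n) :=
  ⟨measurable_isoSphere U, P163.unif_map_iso U⟩

theorem continuous_dot : Continuous fun p : Sph n × Sph n => dot p.1 p.2 := by
  unfold dot
  fun_prop

theorem meas_slab (i : Fin n) (δ : ℝ) : MeasurableSet {s : Sph n | |s.1 i| ≤ δ} :=
  (isClosed_le (by fun_prop) continuous_const).measurableSet

theorem slab_unif [NeZero n] : ∃ K : ℝ≥0∞, K ≠ ⊤ ∧ ∀ (i : Fin n) (δ : ℝ), 0 ≤ δ →
    unif n {s | |s.1 i| ≤ δ} ≤ K * ENNReal.ofReal δ := by
  have h1 : (volume : Measure (P163.E n)).toSphere univ ≠ 0 := by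
    rw [Ne, Measure.measure_univ_eq_zero, Measure.toSphere_eq_zero_iff_finrank]
    simpa using NeZero.ne n
  refine ⟨((volume : Measure (P163.E n)).toSphere univ)⁻¹ * (n * 2 ^ n), ENNReal.mul_ne_top
    (ENNReal.inv_ne_top.2 h1) (ENNReal.mul_ne_top (by simp) (by simp)), fun i δ hδ => ?_⟩
  rw [unif, surf, Measure.smul_apply, smul_eq_mul, mul_assoc, mul_assoc,
    Measure.toSphere_apply' _ (meas_slab i δ), finrank_euclideanSpace_fin]
  gcongr
  set r : Fin n → ℝ := fun j => if j = i then δ else 1 with hr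
  have h2 : (Ioo (0 : ℝ) 1 • ((↑) '' {s : Sph n | |s.1 i| ≤ δ} : Set (P163.E n))) ⊆
      WithLp.ofLp ⁻¹' Icc (-r) r := by
    rintro _ ⟨t, ht, _, ⟨s, hs, rfl⟩, rfl⟩
    have h3 : ∀ j, |(t • s.1) j| ≤ r j := fun j => by
      have h4 : |s.1 j| ≤ r j := by
        by_cases hj : j = i
        · simpa [hr, hj] using hs
        · have := PiLp.norm_apply_le s.1 j
          rw [mem_sphere_zero_iff_norm.1 s.2] at this
          simpa [hr, hj] using this
      rw [PiLp.smul_apply, smul_eq_mul, abs_mul, abs_of_pos ht.1]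
      exact (mul_le_of_le_one_left (abs_nonneg _) ht.2.le).trans h4
    exact ⟨fun j => (abs_le.1 (h3 j)).1, fun j => (abs_le.1 (h3 j)).2⟩
  refine (measure_mono h2).trans (le_of_eq ?_)
  rw [(PiLp.volume_preserving_ofLp (Fin n)).measure_preimage measurableSet_Icc.nullMeasurableSet,
    volume_Icc_pi]
  have h5 : ∀ j, ENNReal.ofReal (r j - (-r) j) =
      2 * if j = i then ENNReal.ofReal δ else 1 := fun j => by
    rw [Pi.neg_apply, sub_neg_eq_add, ← two_mul, ENNReal.ofReal_mul zero_le_two]
    by_cases hj : j = i <;> simp [hr, hj]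
  simp only [h5, Finset.prod_mul_distrib, Finset.prod_const, Finset.card_univ, Fintype.card_fin,
    Finset.prod_ite_eq', Finset.mem_univ, if_true]

theorem slab_rot {ν : Measure (Sph n)} (hν : ∀ U, MeasurePreserving (isoSphere U) ν ν)
    (i : Fin n) (δ : ℝ) (t : Sph n) : ν {s | |dot s t| ≤ δ} = ν {s | |s.1 i| ≤ δ} := by
  have h1 : ‖t.1‖ = ‖(EuclideanSpace.single i (1 : ℝ) : P163.E n)‖ := by
    simp [mem_sphere_zero_iff_norm.1 t.2]
  have h2 := Submodule.reflection_sub h1
  generalize Submodule.reflection (ℝ ∙ (t.1 - EuclideanSpace.single i (1 : ℝ)))ᗮ = U at h2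
  rw [← (hν U).measure_preimage (meas_slab i δ).nullMeasurableSet]
  congr 1
  ext s
  have h3 : dot s t = (isoSphere U s).1 i := by
    rw [dot, ← U.inner_map_map, h2, EuclideanSpace.inner_single_right]
    simp [isoSphere]
  simp only [mem_ofPred_eq, mem_preimage, h3]

theorem slab_inv [NeZero n] {ν : Measure (Sph n)} [IsProbabilityMeasure ν]
    (hν : ∀ U, MeasurePreserving (isoSphere U) ν ν) (i : Fin n) (δ : ℝ) :
    ν {s | |s.1 i| ≤ δ} = unif n {s | |s.1 i| ≤ δ} := by
  have := unif_prob (n := n)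
  have hT : MeasurableSet {p : Sph n × Sph n | |dot p.1 p.2| ≤ δ} :=
    (isClosed_le continuous_dot.abs continuous_const).measurableSet
  have h1 := Measure.prod_apply (μ := ν) (ν := unif n) hT
  have h2 := Measure.prod_apply_symm (μ := ν) (ν := unif n) hT
  have h3 : ∀ s : Sph n, unif n {t | |dot s t| ≤ δ} = unif n {s | |s.1 i| ≤ δ} := fun s => by
    rw [← slab_rot unif_mp i δ s]
    simp only [dot, real_inner_comm]
  simp only [preimage_ofPred_eq, slab_rot hν i δ, lintegral_const, measure_univ, mul_one] at h2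
  simp only [preimage_ofPred_eq, h3, lintegral_const, measure_univ, mul_one] at h1
  rw [← h2, ← h1]

theorem psi_gt {γ a t : ℝ} (hγ : 0 < γ) (ht : 0 < t) (h : t < psi γ a) :
    |a| ≤ (√γ)⁻¹ * (t ^ (-(1 / 2) : ℝ) * exp (-(1 / 4) * t ^ (1 : ℝ))) := by
  have ha : a ≠ 0 := by
    rintro rfl
    simp [psi] at h
    exact absurd h (not_lt.2 ht.le)
  have h1 : exp t < 1 + 1 / (γ * a ^ 2) := (lt_log_iff_exp_lt (by positivity)).1 h
  have h2 : t * exp (t / 2) ≤ exp t - 1 := by
    have h3 : t / 2 ≤ sinh (t / 2) := self_le_sinh_iff.2 (by positivity)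
    have h4 : exp t = exp (t / 2) * exp (t / 2) := by rw [← exp_add, add_halves]
    have h5 : exp (-(t / 2)) * exp (t / 2) = 1 := by rw [← exp_add, neg_add_cancel, exp_zero]
    rw [sinh_eq] at h3
    nlinarith [exp_pos (t / 2)]
  have h6 : t * exp (t / 2) * (γ * a ^ 2) ≤ 1 := (le_div_iff₀ (by positivity)).1 (by linarith)
  refine abs_le_of_sq_le_sq ?_ (by positivity)
  rw [rpow_one, mul_pow, mul_pow, inv_pow, sq_sqrt hγ.le, ← rpow_natCast (t ^ _),
    ← rpow_mul ht.le, ← exp_nat_mul]
  have h7 : (-(1 / 2) * ((2 : ℕ) : ℝ) : ℝ) = -1 := by norm_num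
  have h8 : ((2 : ℕ) : ℝ) * (-(1 / 4) * t) = -(t / 2) := by push_cast; ring
  rw [h7, h8, rpow_neg_one, exp_neg, ← mul_inv, ← mul_inv, ← one_div,
    le_div_iff₀ (by positivity)]
  linarith

theorem measurable_psi (γ : ℝ) : Measurable (psi γ) := by
  unfold psi
  fun_prop

theorem psi_mean [NeZero n] : ∃ K : ℝ, 0 ≤ K ∧ ∀ (ν : Measure (Sph n)) [IsProbabilityMeasure ν],
    (∀ U, MeasurePreserving (isoSphere U) ν ν) → ∀ (i : Fin n) (γ : ℝ), 0 < γ →
      Integrable (fun s : Sph n => psi γ |s.1 i|) ν ∧ ∫ s, psi γ |s.1 i| ∂ν ≤ K / √γ := by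
  obtain ⟨K, hK, H⟩ := slab_unif (n := n)
  have hI := integrableOn_rpow_mul_exp_neg_mul_rpow (p := 1) (s := -(1 / 2)) (b := 1 / 4)
    (by norm_num) one_pos (by norm_num)
  set C := ∫⁻ t in Ioi (0 : ℝ), ENNReal.ofReal (t ^ (-(1 / 2) : ℝ) * exp (-(1 / 4) * t ^ (1 : ℝ)))
    with hC
  have hC' : C ≠ ⊤ := hI.lintegral_lt_top.ne
  refine ⟨(K * C).toReal, ENNReal.toReal_nonneg, fun ν _ hν i γ hγ => ?_⟩
  have hm : Measurable fun s : Sph n => psi γ |s.1 i| :=
    (measurable_psi γ).comp (Continuous.measurable (by fun_prop))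
  have h0 : 0 ≤ᵐ[ν] fun s : Sph n => psi γ |s.1 i| :=
    Filter.Eventually.of_forall fun s => psi_nonneg hγ.le _
  have h1 : ∫⁻ s, ENNReal.ofReal (psi γ |s.1 i|) ∂ν ≤ K * C * ENNReal.ofReal (√γ)⁻¹ := by
    rw [lintegral_eq_lintegral_meas_lt ν h0 hm.aemeasurable, hC, mul_right_comm,
      ← lintegral_const_mul' _ _ (ENNReal.mul_ne_top hK ENNReal.ofReal_ne_top)]
    refine setLIntegral_mono' measurableSet_Ioi fun t ht => ?_
    have ht' : 0 < t := ht
    rw [mul_assoc, ← ENNReal.ofReal_mul (by positivity)]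
    refine le_trans ?_ (H i _ (by positivity))
    rw [← slab_inv hν]
    exact measure_mono fun s hs => (le_abs_self _).trans (psi_gt hγ ht' hs)
  have h2 : K * C * ENNReal.ofReal (√γ)⁻¹ ≠ ⊤ :=
    ENNReal.mul_ne_top (ENNReal.mul_ne_top hK hC') ENNReal.ofReal_ne_top
  refine ⟨⟨hm.aestronglyMeasurable, (hasFiniteIntegral_iff_ofReal h0).2 (h1.trans_lt h2.lt_top)⟩,
    ?_⟩
  rw [integral_eq_lintegral_of_nonneg_ae h0 hm.aestronglyMeasurable]
  refine (ENNReal.toReal_mono h2 h1).trans (le_of_eq ?_)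
  rw [ENNReal.toReal_mul (a := K * C), ENNReal.toReal_ofReal (by positivity), div_eq_mul_inv]

theorem coord_ne_zero [NeZero n] (i : Fin n) : ∀ᵐ s ∂unif n, s.1 i ≠ 0 := by
  obtain ⟨K, hK, H⟩ := slab_unif (n := n)
  have := H i 0 le_rfl
  rw [ae_iff]
  simpa using this

end Vale.Agent.N163X

end

section

/-!
# P163: a lower bound for the spin correlation on every finite graph
-/

open MeasureTheory Set Real
open scoped RealInnerProductSpace ENNReal

namespace Vale.Agent.N163X

open Vale.Agent.P163 (isoSphere measurable_isoSphere)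

variable {n : ℕ} {V : Type} [Fintype V]

/-- The scalar product of the spins at the ends of an edge. -/
noncomputable def bond (σ : V → Sph n) : Sym2 V → ℝ :=
  Sym2.lift ⟨fun x y => dot (σ x) (σ y), fun _ _ => real_inner_comm _ _⟩

open Classical in
/-- Minus the energy. -/
noncomputable def en (G : SimpleGraph V) (σ : V → Sph n) : ℝ := ∑ e ∈ G.edgeFinset, bond σ e

theorem model_eq (β : ℝ) (G : SimpleGraph V) :
    model n β G = (Measure.pi fun _ => unif n).tilted fun σ => β * en G σ := rfl

omit [Fintype V] in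
theorem continuous_dot' (x y : V) : Continuous fun σ : V → Sph n => dot (σ x) (σ y) := by
  unfold dot
  fun_prop

theorem continuous_en (G : SimpleGraph V) : Continuous (en (n := n) G) :=
  continuous_finsetSum _ fun e _ => by
    induction e using Sym2.ind with
    | h x y => exact continuous_dot' x y

theorem int_cont {X : Type} [TopologicalSpace X] [CompactSpace X] [MeasurableSpace X]
    [OpensMeasurableSpace X] (μ : Measure X) [IsFiniteMeasure μ] {f : X → ℝ} (hf : Continuous f) :
    Integrable f μ :=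
  hf.integrable_of_hasCompactSupport (HasCompactSupport.of_compactSpace _)

theorem model_prob [NeZero n] (β : ℝ) (G : SimpleGraph V) : IsProbabilityMeasure (model n β G) := by
  have := unif_prob (n := n)
  have := continuous_en (n := n) G
  rw [model_eq]
  exact isProbabilityMeasure_tilted (int_cont _ (by fun_prop))

theorem tilted_mp {X : Type} [MeasurableSpace X] {P : Measure X} {T : X → X}
    (hT : MeasurePreserving T P P) {f : X → ℝ} (hf : Measurable f) (h : ∀ x, f (T x) = f x) :
    MeasurePreserving T (P.tilted f) (P.tilted f) := by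
  refine ⟨hT.measurable, Measure.ext fun s hs => ?_⟩
  rw [Measure.map_apply hT.measurable hs, tilted_apply' _ _ hs,
    tilted_apply' _ _ (hT.measurable hs), ← hT.setLIntegral_comp_preimage hs (by fun_prop)]
  simp only [h]

theorem marginal_mp [NeZero n] (β : ℝ) (G : SimpleGraph V) (u : V)
    (U : P163.E n ≃ₗᵢ[ℝ] P163.E n) :
    MeasurePreserving (isoSphere U) ((model n β G).map fun σ => σ u)
      ((model n β G).map fun σ => σ u) := by
  have := unif_prob (n := n)
  have hc := continuous_en (n := n) G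
  have h1 : MeasurePreserving (fun (σ : V → Sph n) x => isoSphere U (σ x)) (model n β G)
      (model n β G) := by
    rw [model_eq]
    refine tilted_mp (measurePreserving_pi _ _ fun _ => unif_mp U)
      (Continuous.measurable (by fun_prop)) fun σ => ?_
    congr 1
    refine Finset.sum_congr rfl fun e _ => ?_
    induction e using Sym2.ind with
    | h x y => exact U.inner_map_map _ _
  refine ⟨measurable_isoSphere U, ?_⟩
  rw [Measure.map_map (measurable_isoSphere U) (measurable_pi_apply u)]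
  conv_rhs => rw [← h1.map_eq, Measure.map_map (measurable_pi_apply u) h1.measurable]
  rfl

/-- The coordinate `i` is multiplied by the sign `u`. -/
noncomputable def rf (i : Fin n) (u : ℤˣ) : P163.E n ≃ₗᵢ[ℝ] P163.E n :=
  LinearIsometryEquiv.piLpCongrRight 2 fun j =>
    if j = i ∧ u = -1 then LinearIsometryEquiv.neg ℝ else LinearIsometryEquiv.refl ℝ ℝ

theorem rf_apply (i : Fin n) (u : ℤˣ) (v : P163.E n) (j : Fin n) :
    rf i u v j = if j = i then ((u : ℤ) : ℝ) * v j else v j := by
  rcases Int.units_eq_one_or u with rfl | rfl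
  · simp [rf]
  · by_cases h : j = i <;> simp [rf, h]

/-- The coordinates `i` of all spins are multiplied by signs. -/
noncomputable def fl (i : Fin n) (s : V → ℤˣ) (σ : V → Sph n) : V → Sph n :=
  fun x => isoSphere (rf i (s x)) (σ x)

omit [Fintype V] in
theorem fl_co (i : Fin n) (s : V → ℤˣ) (σ : V → Sph n) (x : V) :
    (fl i s σ x).1 i = ev x s * (σ x).1 i := by
  simp [fl, isoSphere, rf_apply, ev]

omit [Fintype V] in
theorem fl_abs (i : Fin n) (s : V → ℤˣ) (σ : V → Sph n) (x : V) :
    |(fl i s σ x).1 i| = |(σ x).1 i| := by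
  rw [fl_co, abs_mul]
  rcases mul_self_eq_one_iff.1 (char_sq sgn_sq (ev x) s) with h | h <;> simp [h]

omit [Fintype V] in
theorem fl_bond (β : ℝ) (i : Fin n) (s : V → ℤˣ) (σ : V → Sph n) (e : Sym2 V) :
    β * bond (fl i s σ) e = β * bond σ e - cpl β (fun u => (σ u).1 i) e +
      cpl β (fun u => (σ u).1 i) e * evE e s := by
  induction e using Sym2.ind with
  | h x y =>
    have h : dot (fl i s σ x) (fl i s σ y) - dot (σ x) (σ y) =
        (ev x s * ev y s - 1) * ((σ x).1 i * (σ y).1 i) := by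
      simp only [dot, PiLp.inner_apply, ← Finset.sum_sub_distrib]
      rw [Finset.sum_eq_single i (fun j _ hj => by simp [fl, isoSphere, rf_apply, hj]) (by simp)]
      simp only [fl_co, RCLike.inner_apply, conj_trivial]
      ring
    simp only [bond, cpl, evE, Sym2.lift_mk, MonoidHom.mul_apply]
    linear_combination β * h

/-- The sign of a real number, as a unit of `ℤ`. -/
noncomputable def sg (b : ℝ) : ℤˣ := if b < 0 then -1 else 1

omit [Fintype V] in
theorem ev_sg (b : V → ℝ) (s : V → ℤˣ) (u : V) :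
    ev u (s * fun v => sg (b v)) * b u = ev u s * |b u| := by
  rw [map_mul, mul_assoc]
  congr 1
  by_cases h : b u < 0
  · simp [ev, sg, h, abs_of_neg h]
  · simp [ev, sg, h, abs_of_nonneg (not_lt.1 h)]

/-- The total cost of a walk, with its two ends. -/
noncomputable def tot {G : SimpleGraph V} (β : ℝ) (i : Fin n) {x y : V} (p : G.Walk x y)
    (σ : V → Sph n) : ℝ :=
  psi 1 |(σ x).1 i| + psi 1 |(σ y).1 i| + cost β (fun u => |(σ u).1 i|) p

theorem pointwise [DecidableEq V] {G : SimpleGraph V} {β : ℝ} (hβ : 0 < β) (i : Fin n) {x y : V}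
    (p : G.Walk x y) (σ : V → Sph n) (hσ : ∀ u, (σ u).1 i ≠ 0) :
    ∑ s, exp (β * en G (fl i s σ)) * exp (-tot β i p (fl i s σ)) ≤
      ∑ s, exp (β * en G (fl i s σ)) * ((fl i s σ x).1 i * (fl i s σ y).1 i) := by
  classical
  set b : V → ℝ := fun u => (σ u).1 i with hb
  obtain ⟨D, hD, hen⟩ : ∃ D : Finset (Sym2 V), (∀ x y, G.Adj x y → s(x, y) ∈ D) ∧
      ∀ τ : V → Sph n, en G τ = ∑ e ∈ D, bond τ e :=
    ⟨_, fun x y h => SimpleGraph.mem_edgeFinset.2 h, fun _ => rfl⟩
  have h1 : ∀ s, exp (β * en G (fl i (s * fun v => sg (b v)) σ)) =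
      exp (∑ e ∈ D, (β * bond σ e - cpl β b e)) *
        ∏ e ∈ D, exp (cpl β (fun u => |b u|) e * evE e s) := fun s => by
    rw [hen, Finset.mul_sum, ← exp_sum, ← exp_add, ← Finset.sum_add_distrib]
    congr 1
    refine Finset.sum_congr rfl fun e _ => ?_
    rw [fl_bond]
    congr 1
    induction e using Sym2.ind with
    | h u v =>
      have hu := ev_sg b s u
      have hv := ev_sg b s v
      simp only [cpl, evE, Sym2.lift_mk, MonoidHom.mul_apply]
      calc _ = β * ((ev u (s * fun v => sg (b v)) * b u) * (ev v (s * fun v => sg (b v)) * b v)) :=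
            by ring
        _ = _ := by rw [hu, hv]; ring
  have h2 : ∀ s, tot β i p (fl i s σ) = tot β i p σ := fun s => by simp only [tot, fl_abs]
  have ha : ∀ u, 0 < |b u| := fun u => abs_pos.2 (hσ u)
  have h3 := Zs_walk hD hβ ha p
  have h4 := Zs_nonneg sgn_sq evE (J := cpl β fun u => |b u|) (fun e => by
    induction e using Sym2.ind with
    | h u v => exact mul_nonneg hβ.le (mul_pos (ha u) (ha v)).le) D 1
  rw [← Equiv.sum_comp (Equiv.mulRight fun v => sg (b v)),
    ← Equiv.sum_comp (Equiv.mulRight fun v => sg (b v)) fun s => _ * (_ * _)]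
  simp only [Equiv.coe_mulRight, h1, h2, fl_co]
  set R := exp (∑ e ∈ D, (β * bond σ e - cpl β b e)) with hR
  have hR0 : 0 ≤ R := (exp_pos _).le
  calc _ = R * (exp (-psi 1 |b x|) * exp (-psi 1 |b y|) *
        (exp (-cost β (fun u => |b u|) p) * Zs D evE (cpl β fun u => |b u|) 1)) := by
        simp only [Zs, Finset.mul_sum, tot, neg_add, exp_add, MonoidHom.one_apply]
        exact Finset.sum_congr rfl fun s _ => by ring
    _ ≤ R * (|b x| * |b y| * Zs D evE (cpl β fun u => |b u|) (ev x * ev y)) := by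
        gcongr
        · exact amp_lower (ha x)
        · exact amp_lower (ha y)
    _ = _ := by
        simp only [Zs, Finset.mul_sum, MonoidHom.mul_apply]
        refine Finset.sum_congr rfl fun s _ => ?_
        rw [ev_sg b s x, ev_sg b s y]
        ring

omit [Fintype V] in
theorem cost_nonneg {G : SimpleGraph V} {β : ℝ} (hβ : 0 ≤ β) (a : V → ℝ) {x y : V}
    (p : G.Walk x y) : 0 ≤ cost β a p := by
  induction p with
  | nil => exact le_rfl
  | cons h p ih => exact add_nonneg (add_nonneg (psi_nonneg hβ _) (psi_nonneg hβ _)) ih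

theorem measurable_amp (γ : ℝ) (i : Fin n) (u : V) :
    Measurable fun σ : V → Sph n => psi γ |(σ u).1 i| :=
  (measurable_psi γ).comp (Continuous.measurable (by fun_prop))

theorem measurable_tot {G : SimpleGraph V} (β : ℝ) (i : Fin n) {x y : V} (p : G.Walk x y) :
    Measurable (tot β i p) := by
  refine ((measurable_amp 1 i x).add (measurable_amp 1 i y)).add ?_
  induction p with
  | nil => exact measurable_const
  | cons h p ih => exact ((measurable_amp β i _).add (measurable_amp β i _)).add ih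

theorem integrated [NeZero n] {G : SimpleGraph V} {β : ℝ} (hβ : 0 < β) (i : Fin n) {x y : V}
    (p : G.Walk x y) : ∫ σ, exp (-tot β i p σ) ∂model n β G ≤
      ∫ σ, (σ x).1 i * (σ y).1 i ∂model n β G := by
  classical
  have := unif_prob (n := n)
  have hc := continuous_en (n := n) G
  set P : Measure (V → Sph n) := Measure.pi fun _ => unif n with hP
  have hfl : ∀ s, MeasurePreserving (fl (V := V) i s) P P := fun s =>
    measurePreserving_pi _ _ fun x => unif_mp (rf i (s x))
  have hF : Integrable (fun σ => exp (β * en G σ) * ((σ x).1 i * (σ y).1 i)) P :=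
    int_cont _ (by fun_prop)
  have hH : Integrable (fun σ => exp (β * en G σ) * exp (-tot β i p σ)) P := by
    refine (int_cont P (f := fun σ => exp (β * en G σ)) (by fun_prop)).mul_bdd (c := 1)
      (measurable_tot β i p).neg.exp.aestronglyMeasurable (Filter.Eventually.of_forall fun σ => ?_)
    rw [norm_of_nonneg (exp_pos _).le, exp_le_one_iff, neg_nonpos]
    exact add_nonneg (add_nonneg (psi_nonneg zero_le_one _) (psi_nonneg zero_le_one _))
      (cost_nonneg hβ.le _ _)
  have key : ∀ {F : (V → Sph n) → ℝ}, Integrable F P →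
      ∫ σ, ∑ s, F (fl i s σ) ∂P = Fintype.card (V → ℤˣ) * ∫ σ, F σ ∂P := fun {F} hF => by
    rw [integral_finsetSum (f := fun s σ => F (fl i s σ)) _
      fun s _ => (hfl s).integrable_comp_of_integrable hF]
    have : ∀ s, ∫ σ, F (fl i s σ) ∂P = ∫ σ, F σ ∂P := fun s => by
      conv_rhs => rw [← (hfl s).map_eq]
      rw [integral_map (hfl s).measurable.aemeasurable
        (by rw [(hfl s).map_eq]; exact hF.aestronglyMeasurable)]
    simp [this]
  have hae : ∀ᵐ σ ∂P, ∀ u, (σ u).1 i ≠ 0 := ae_all_iff.2 fun u =>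
    (measurePreserving_eval (fun _ : V => unif n) u).quasiMeasurePreserving.ae (coord_ne_zero i)
  have h1 := integral_mono_ae
    (integrable_finsetSum Finset.univ fun s _ => (hfl s).integrable_comp_of_integrable hH)
    (integrable_finsetSum Finset.univ fun s _ => (hfl s).integrable_comp_of_integrable hF)
    (hae.mono fun σ hσ => pointwise hβ i p σ hσ)
  erw [key hH, key hF] at h1
  have h2 := le_of_mul_le_mul_left h1 (by positivity)
  simp only [model_eq, integral_tilted, smul_eq_mul, div_mul_eq_mul_div, integral_div]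
  exact div_le_div_of_nonneg_right h2 (integral_nonneg fun _ => (exp_pos _).le)

theorem lower_walk [NeZero n] : ∃ K : ℝ, 0 ≤ K ∧ ∀ (V : Type) [Fintype V] (G : SimpleGraph V)
    (β : ℝ), 0 < β → ∀ (i : Fin n) (x y : V) (p : G.Walk x y),
      exp (-(2 * K + 2 * K * p.length / √β)) ≤ ∫ σ, (σ x).1 i * (σ y).1 i ∂model n β G := by
  obtain ⟨K, hK, H⟩ := psi_mean (n := n)
  refine ⟨K, hK, fun V _ G β hβ i x y p => ?_⟩
  have := model_prob (n := n) β G
  have h1 : ∀ γ, 0 < γ → ∀ u, Integrable (fun σ : V → Sph n => psi γ |(σ u).1 i|) (model n β G) ∧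
      ∫ σ, psi γ |(σ u).1 i| ∂model n β G ≤ K / √γ := fun γ hγ u => by
    have hu : AEMeasurable (fun σ : V → Sph n => σ u) (model n β G) :=
      (measurable_pi_apply u).aemeasurable
    have := Measure.isProbabilityMeasure_map hu
    obtain ⟨h2, h3⟩ := H _ (marginal_mp β G u) i γ hγ
    rw [integral_map hu h2.aestronglyMeasurable] at h3
    exact ⟨(integrable_map_measure h2.aestronglyMeasurable hu).1 h2, h3⟩
  have h2 : ∀ {x y : V} (p : G.Walk x y),
      Integrable (fun σ : V → Sph n => cost β (fun u => |(σ u).1 i|) p) (model n β G) ∧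
      ∫ σ, cost β (fun u => |(σ u).1 i|) p ∂model n β G ≤ 2 * K * p.length / √β := fun p => by
    induction p with
    | nil => simp [cost]
    | @cons u v w h p ih =>
      obtain ⟨a1, a2⟩ := h1 β hβ u
      obtain ⟨b1, b2⟩ := h1 β hβ v
      refine ⟨(a1.add b1).add ih.1, ?_⟩
      simp only [cost]
      rw [integral_add (a1.fun_add b1) ih.1, integral_add a1 b1, SimpleGraph.Walk.length_cons]
      refine (add_le_add (add_le_add a2 b2) ih.2).trans (le_of_eq ?_)
      push_cast
      ring
  obtain ⟨a1, a2⟩ := h1 1 one_pos x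
  obtain ⟨b1, b2⟩ := h1 1 one_pos y
  have h3 : Integrable (tot β i p) (model n β G) := (a1.add b1).add (h2 p).1
  have h4 : ∫ σ, tot β i p σ ∂model n β G ≤ 2 * K + 2 * K * p.length / √β := by
    simp only [tot]
    rw [integral_add (a1.fun_add b1) (h2 p).1, integral_add a1 b1]
    rw [sqrt_one, div_one] at a2 b2
    linarith [(h2 p).2]
  have h5 : Integrable (fun σ => exp (-tot β i p σ)) (model n β G) := by
    refine Integrable.of_bound (measurable_tot β i p).neg.exp.aestronglyMeasurable 1
      (Filter.Eventually.of_forall fun σ => ?_)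
    rw [norm_of_nonneg (exp_pos _).le, exp_le_one_iff, neg_nonpos]
    exact add_nonneg (add_nonneg (psi_nonneg zero_le_one _) (psi_nonneg zero_le_one _))
      (cost_nonneg hβ.le _ _)
  have h6 := convexOn_exp.map_integral_le continuous_exp.continuousOn isClosed_univ
    (Filter.Eventually.of_forall fun _ => mem_univ _) h3.neg h5
  refine le_trans ?_ (h6.trans (integrated hβ i p))
  simp only [Pi.neg_apply, integral_neg]
  exact exp_le_exp.2 (neg_le_neg h4)

end Vale.Agent.N163X

end
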