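import Vale.Agent.N163X.Lower

section

/-!
# P163: the two descriptions of the infinite-volume states agree
-/

open MeasureTheory Set Real Filter Topology
open scoped RealInnerProductSpace

namespace Vale.Agent.N163X

open Vale.Agent.P163

variable {n : ℕ}

open Classical in
theorem sum_pairs {V : Type} [Fintype V] (G : SimpleGraph V) (σ : V → Sph n) :
    ∑ x, ∑ y, (if G.Adj x y then dot (σ x) (σ y) else 0) = 2 * en G σ := by
  rw [← Finset.sum_product', ← Finset.sum_filter, en, Finset.mul_sum,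
    ← Finset.sum_fiberwise_of_maps_to (g := fun p : V × V => s(p.1, p.2)) (t := G.edgeFinset)
      (s := (Finset.univ ×ˢ Finset.univ).filter fun p : V × V => G.Adj p.1 p.2)
      fun p hp => SimpleGraph.mem_edgeFinset.2 (Finset.mem_filter.1 hp).2]
  refine Finset.sum_congr rfl fun e he => ?_
  induction e using Sym2.ind with
  | h u v =>
    have huv : G.Adj u v := SimpleGraph.mem_edgeFinset.1 he
    have h1 : ((Finset.univ ×ˢ Finset.univ).filter fun p : V × V => G.Adj p.1 p.2).filter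
        (fun p => s(p.1, p.2) = s(u, v)) = {(u, v), (v, u)} := by
      ext ⟨a, b⟩
      simp only [Finset.mem_filter, Finset.mem_product, Finset.mem_univ, true_and, Sym2.eq_iff,
        Finset.mem_insert, Finset.mem_singleton, Prod.mk.injEq, and_iff_right_iff_imp]
      rintro (⟨rfl, rfl⟩ | ⟨rfl, rfl⟩)
      exacts [huv, huv.symm]
    rw [h1, Finset.sum_pair fun h => huv.ne (congrArg Prod.fst h), two_mul]
    exact congrArg _ (real_inner_comm _ _)

theorem tilted_add_const {X : Type} [MeasurableSpace X] (P : Measure X) (f : X → ℝ) (c : ℝ) :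
    P.tilted (fun x => f x + c) = P.tilted f := by
  simp only [Measure.tilted, exp_add, integral_mul_const, mul_div_mul_right _ _ (exp_pos c).ne']

theorem gibbs_eq {V : Type} [Fintype V] (β : ℝ) (G : SimpleGraph V) (R : V → V → Prop)
    (hd : ∀ x y, Decidable (R x y)) (h : ∀ x y, x ≠ y → (R x y ↔ G.Adj x y)) :
    (Model.gibbs n fun x y => if R x y then β else 0) = model n β G := by
  classical
  rw [model_eq, ← tilted_add_const _ _ ((1 / 2) * ∑ x, if R x x then β else 0), Model.gibbs,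
    model_unif]
  congr 1
  funext σ
  have h1 : ∀ x y, (if R x y then β else 0) * ⟪(σ x).1, (σ y).1⟫ =
      β * (if G.Adj x y then dot (σ x) (σ y) else 0) +
        if x = y then (if R x x then β else 0) else 0 := fun x y => by
    by_cases hxy : x = y
    · subst hxy
      simp [mem_sphere_zero_iff_norm.1 (σ x).2]
    · by_cases hR : R x y
      · simp [hxy, hR, (h x y hxy).1 hR, dot]
      · simp [hxy, hR, mt (h x y hxy).2 hR]
  simp only [h1, Finset.sum_add_distrib, ← Finset.mul_sum, sum_pairs, Finset.sum_ite_eq,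
    Finset.mem_univ, if_true]
  ring

theorem mul_cases {k L d : ℤ} (h1 : |d| < L) (h2 : |d - k * L| ≤ 1) : k = -1 ∨ k = 0 ∨ k = 1 := by
  rw [abs_lt] at h1
  rw [abs_le] at h2
  have h3 : k ≤ 1 := by nlinarith
  have h4 : -1 ≤ k := by nlinarith
  omega

theorem wrap_zero {a b x y k : ℤ} (hx : a ≤ x ∧ x ≤ b) (hy : a ≤ y ∧ y ≤ b)
    (h : x - (y + k * (b - a + 1)) = 0) : x = y := by
  rcases mul_cases (k := k) (L := b - a + 1) (d := x - y) (by rw [abs_lt]; omega)
    (by rw [sub_sub, h]; simp) with rfl | rfl | rfl <;> omega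

theorem wrap_one {a b x y k : ℤ} (hx : a ≤ x ∧ x ≤ b) (hy : a ≤ y ∧ y ≤ b)
    (h : x - (y + k * (b - a + 1)) = 1) : x = y + 1 ∨ y = b ∧ x = a := by
  rcases mul_cases (k := k) (L := b - a + 1) (d := x - y) (by rw [abs_lt]; omega)
    (by rw [sub_sub, h]; simp) with rfl | rfl | rfl <;> omega

theorem wrap_neg {a b x y k : ℤ} (hx : a ≤ x ∧ x ≤ b) (hy : a ≤ y ∧ y ≤ b)
    (h : x - (y + k * (b - a + 1)) = -1) : y = x + 1 ∨ x = b ∧ y = a :=
  wrap_one (k := -k) hy hx (by linarith)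

theorem abs_cases4 {u v : ℤ} (h : |u| + |v| = 1) :
    u = 1 ∧ v = 0 ∨ u = -1 ∧ v = 0 ∨ u = 0 ∧ v = 1 ∨ u = 0 ∧ v = -1 := by
  simp only [Int.abs_eq_natAbs] at h
  omega

theorem box_adj (p : Bool) (a b : ℤ × ℤ) (x y : Finset.Icc a b) (hxy : x ≠ y) :
    ((p = true ∧ Model.PerAdj a b x y) ∨ (p = false ∧ Model.Adj x y)) ↔ (box p a b).Adj x y := by
  obtain ⟨⟨x1, x2⟩, hx⟩ := x
  obtain ⟨⟨y1, y2⟩, hy⟩ := y
  obtain ⟨a1, a2⟩ := a
  obtain ⟨b1, b2⟩ := b
  simp only [box, SimpleGraph.fromRel_adj, Model.PerAdj, Model.Adj, Prod.mk_add_mk, Prod.mk.injEq,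
    ne_eq, hxy, not_false_eq_true, true_and, add_zero]
  simp only [Finset.mem_Icc, Prod.mk_le_mk] at hx hy
  have hx1 := And.intro hx.1.1 hx.2.1
  have hx2 := And.intro hx.1.2 hx.2.2
  have hy1 := And.intro hy.1.1 hy.2.1
  have hy2 := And.intro hy.1.2 hy.2.2
  cases p
  · simp only [Bool.false_eq_true, false_and, false_or, true_and, or_false]
    constructor
    · intro h
      rcases abs_cases4 h with h | h | h | h
      exacts [.inr (.inl (by omega)), .inl (.inl (by omega)), .inr (.inr (by omega)),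
        .inl (.inr (by omega))]
    · rintro ((h | h) | (h | h)) <;> simp [h.1, h.2]
  · simp only [true_and, Bool.true_eq_false, false_and, or_false]
    constructor
    · rintro ⟨k, l, h⟩
      rcases abs_cases4 h with h | h | h | h
      · have h1 := wrap_zero hx2 hy2 h.2
        rcases wrap_one hx1 hy1 h.1 with h2 | h2
        exacts [.inr (.inl ⟨h2, h1⟩), .inr (.inr (.inr (.inl ⟨h2.1, h2.2, h1⟩)))]
      · have h1 := (wrap_zero hx2 hy2 h.2).symm
        rcases wrap_neg hx1 hy1 h.1 with h2 | h2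
        exacts [.inl (.inl ⟨h2, h1⟩), .inl (.inr (.inr (.inl ⟨h2.1, h2.2, h1⟩)))]
      · have h1 := wrap_zero hx1 hy1 h.1
        rcases wrap_one hx2 hy2 h.2 with h2 | h2
        exacts [.inr (.inr (.inl ⟨h1, h2⟩)), .inr (.inr (.inr (.inr ⟨h2.1, h1, h2.2⟩)))]
      · have h1 := (wrap_zero hx1 hy1 h.1).symm
        rcases wrap_neg hx2 hy2 h.2 with h2 | h2
        exacts [.inl (.inr (.inl ⟨h1, h2⟩)), .inl (.inr (.inr (.inr ⟨h2.1, h1, h2.2⟩)))]
    · simp only [Int.abs_eq_natAbs]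
      rintro ((h | h | h | h) | (h | h | h | h))
      exacts [⟨0, 0, by omega⟩, ⟨0, 0, by omega⟩, ⟨1, 0, by omega⟩, ⟨0, 1, by omega⟩,
        ⟨0, 0, by omega⟩, ⟨0, 0, by omega⟩, ⟨-1, 0, by omega⟩, ⟨0, -1, by omega⟩]

theorem boxState_eq (β : ℝ) (p : Bool) (a b : ℤ × ℤ) :
    Model.boxState n β p a b = model n β (box p a b) :=
  gibbs_eq β (box p a b) (fun x y => (p = true ∧ Model.PerAdj a b x y) ∨ (p = false ∧ Model.Adj x y))
    _ (box_adj p a b)

theorem IsState.model {β : ℝ} {μ : Measure (ℤ × ℤ → Sph n)} (h : IsState n β μ) :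
    Model.IsInfiniteVolumeState n β μ := by
  obtain ⟨p, a, b, h1, _, η, h2⟩ := h
  refine ⟨p, a, b, h1, fun A f hf => ?_⟩
  refine (h2 (fun σ => f fun x => σ x.1) A (hf.comp (by fun_prop))
    fun σ τ hστ => congrArg f (funext fun x => hστ x x.2)).congr' ?_
  filter_upwards [P163W43.Exhausts.sub h1 A] with k hk
  rw [dif_pos hk, boxState_eq]
  refine integral_congr_ae (Eventually.of_forall fun σ => congrArg f (funext fun x => ?_))
  exact Subtype.val_injective.extend_apply σ η ⟨x.1, hk x.2⟩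

theorem extend_eq {A : Finset (ℤ × ℤ)} (η : ℤ × ℤ → Sph n) (τ : A → Sph n) (x : ℤ × ℤ) :
    Function.extend Subtype.val τ η x = if h : x ∈ A then τ ⟨x, h⟩ else η x := by
  split_ifs with h
  · exact Subtype.val_injective.extend_apply τ η ⟨x, h⟩
  · exact Function.extend_apply' _ _ _ fun ⟨y, hy⟩ => h (hy ▸ y.2)

theorem isLimit_of_limit [NeZero n] {β : ℝ} {p : ℕ → Bool} {a b : ℕ → ℤ × ℤ}
    {μ : Measure (ℤ × ℤ → Sph n)} (h1 : P163W43.Exhausts a b)
    (h2 : P163W43.LocalLimit n β p a b μ) : IsLimit n β p a b μ := by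
  obtain ⟨e⟩ : Nonempty (Sph n) := nonempty_of_isProbabilityMeasure (P163.unif n)
  refine ⟨h1, h2.prob, fun _ => e, fun F A hF hA => ?_⟩
  have hc : Continuous fun τ : A → Sph n => Function.extend Subtype.val τ fun _ => e :=
    continuous_pi fun x => by
      simp only [extend_eq]
      split_ifs
      exacts [continuous_apply _, continuous_const]
  have h3 := h2 A (fun τ => F (Function.extend Subtype.val τ fun _ => e)) (hF.comp hc)
  have h4 : ∀ σ : ℤ × ℤ → Sph n,
      F (Function.extend Subtype.val (fun x : A => σ x.1) fun _ => e) = F σ := fun σ =>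
    hA fun x hx => by rw [extend_eq, dif_pos (Finset.mem_coe.1 hx)]
  simp only [h4] at h3
  refine h3.congr' ?_
  filter_upwards [h1.sub A] with k hk
  rw [dif_pos hk, boxState_eq]
  refine integral_congr_ae (Eventually.of_forall fun σ => hA fun x hx => ?_)
  rw [extend_eq, extend_eq, dif_pos (Finset.mem_coe.1 hx), dif_pos (hk hx)]

theorem exists_isEvenState [NeZero n] (β : ℝ) : ∃ μ, IsEvenState n β μ := by
  have h : P163W43.Exhausts (fun k : ℕ => (-(k : ℤ), -(k : ℤ))) fun k => ((k : ℤ) + 1, (k : ℤ) + 1) :=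
    fun x => by
      filter_upwards [eventually_ge_atTop (x.1.natAbs + x.2.natAbs)] with k hk
      simp only [Finset.mem_Icc, Prod.le_def]
      omega
  obtain ⟨φ, hφ, μ, hμ⟩ := P163W43.exists_limit (n := n) β (fun _ => true) h
  refine ⟨μ, _, _, isLimit_of_limit (fun x => hφ.tendsto_atTop.eventually (h x)) hμ, fun k => ?_⟩
  exact ⟨⟨φ k + 1, by simp; ring⟩, ⟨φ k + 1, by simp; ring⟩⟩

theorem IsEvenState.isState {β : ℝ} {μ : Measure (ℤ × ℤ → Sph n)} (h : IsEvenState n β μ) :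
    IsState n β μ :=
  let ⟨a, b, h, _⟩ := h
  ⟨_, a, b, h⟩

theorem exists_isState [NeZero n] (β : ℝ) : ∃ μ, IsState n β μ :=
  (exists_isEvenState β).imp fun _ h => h.isState

theorem len_eq (x y : ℤ × ℤ) : len x y = Model.dist2 x y := by
  simp [len, Model.dist2]

theorem decay (hn : 3 ≤ n) {β : ℝ} (hβ : 0 < β) : ∃ C m : ℝ, 0 < m ∧ ∀ μ, IsState n β μ →
    ∀ x y, ∫ σ, dot (σ x) (σ y) ∂μ ≤ C * exp (-m * len x y) := by
  have : NeZero n := ⟨by omega⟩
  obtain ⟨C, m, hm, H⟩ := model_decay (bridge hn hβ fun _ hε => MB_decay hn hβ.le hε)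
  exact ⟨C, m, hm, fun μ hμ x y => by rw [len_eq]; exact H μ hμ.model x y⟩

end Vale.Agent.N163X

end

section

/-!
# P163: two-sided exponential bounds, and the mass tends to zero at low temperature
-/

open MeasureTheory Set Real Filter Topology
open scoped RealInnerProductSpace

namespace Vale.Agent.N163X

variable {n : ℕ}

theorem lower_dot [NeZero n] : ∃ c K : ℝ, 0 < c ∧ 0 ≤ K ∧ ∀ (V : Type) [Fintype V]
    (G : SimpleGraph V) (β : ℝ), 0 < β → ∀ (x y : V) (p : G.Walk x y),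
      c * exp (-(K / √β) * p.length) ≤ ∫ σ, dot (σ x) (σ y) ∂model n β G := by
  obtain ⟨K, hK, H⟩ := lower_walk (n := n)
  refine ⟨exp (-(2 * K)), 2 * K, exp_pos _, by positivity, fun V _ G β hβ x y p => ?_⟩
  have := model_prob (n := n) β G
  have h1 : ∀ σ : V → Sph n, dot (σ x) (σ y) = ∑ i, (σ x).1 i * (σ y).1 i := fun σ => by
    simp [dot, PiLp.inner_apply, mul_comm]
  simp only [h1]
  rw [integral_finsetSum _ fun i _ => int_cont _ (by fun_prop), ← exp_add]
  refine le_trans (le_trans (le_of_eq ?_) (H V G β hβ 0 x y p))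
    (Finset.single_le_sum (f := fun i => ∫ σ, (σ x).1 i * (σ y).1 i ∂model n β G)
      (fun i _ => (exp_pos _).le.trans (H V G β hβ i x y p)) (Finset.mem_univ 0))
  congr 1
  ring

theorem box_step (p : Bool) (a b : ℤ × ℤ) (x z : Finset.Icc a b)
    (h : (x.1.1 - z.1.1).natAbs + (x.1.2 - z.1.2).natAbs = 1) : (box p a b).Adj x z := by
  have hne : x ≠ z := by
    rintro rfl
    simp at h
  refine (box_adj p a b x z hne).1 ?_
  have h1 : P163.Model.Adj x z := by
    simp only [P163.Model.Adj, Int.abs_eq_natAbs]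
    omega
  cases p
  · exact .inr ⟨rfl, h1⟩
  · exact .inl ⟨rfl, 0, 0, by simpa using h1⟩

theorem box_walk (p : Bool) (a b : ℤ × ℤ) (y : Finset.Icc a b) (m : ℕ) : ∀ x : Finset.Icc a b,
    (x.1.1 - y.1.1).natAbs + (x.1.2 - y.1.2).natAbs = m →
      ∃ w : (box p a b).Walk x y, w.length = m := by
  induction m with
  | zero =>
    intro x h
    obtain rfl : x = y := Subtype.ext (Prod.ext (by omega) (by omega))
    exact ⟨.nil, rfl⟩
  | succ m ih =>
    intro x h
    have hx := x.2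
    have hy := y.2
    simp only [Finset.mem_Icc, Prod.le_def] at hx hy
    obtain ⟨z, hz, h1, h2⟩ : ∃ z : ℤ × ℤ, (a.1 ≤ z.1 ∧ a.2 ≤ z.2) ∧ (z.1 ≤ b.1 ∧ z.2 ≤ b.2) ∧
        (x.1.1 - z.1).natAbs + (x.1.2 - z.2).natAbs = 1 ∧
        (z.1 - y.1.1).natAbs + (z.2 - y.1.2).natAbs = m := by
      rcases lt_trichotomy x.1.1 y.1.1 with h1 | h1 | h1
      · exact ⟨(x.1.1 + 1, x.1.2), by dsimp only; omega⟩
      · rcases lt_or_ge x.1.2 y.1.2 with h2 | h2
        · exact ⟨(x.1.1, x.1.2 + 1), by dsimp only; omega⟩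
        · exact ⟨(x.1.1, x.1.2 - 1), by dsimp only; omega⟩
      · exact ⟨(x.1.1 - 1, x.1.2), by dsimp only; omega⟩
    obtain ⟨w, hw⟩ := ih ⟨z, Finset.mem_Icc.2 ⟨hz, h1⟩⟩ h2.2
    exact ⟨.cons (box_step p a b x ⟨z, Finset.mem_Icc.2 ⟨hz, h1⟩⟩ h2.1) w, by simp [hw]⟩

theorem taxi_le (x y : ℤ × ℤ) :
    (((x.1 - y.1).natAbs + (x.2 - y.2).natAbs : ℕ) : ℝ) ≤ 2 * len x y := by
  have h1 : |(x.1 - y.1 : ℝ)| ≤ len x y := abs_le_sqrt (le_add_of_nonneg_right (sq_nonneg _))
  have h2 : |(x.2 - y.2 : ℝ)| ≤ len x y := abs_le_sqrt (le_add_of_nonneg_left (sq_nonneg _))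
  simp only [Nat.cast_add, Nat.cast_natAbs, Int.cast_abs, Int.cast_sub]
  linarith

theorem mass_le {c C m r : ℝ} (hc : 0 < c) {t : ℕ → ℝ} (ht : ∀ k : ℕ, k ≤ t k)
    (h : ∀ k : ℕ, c * exp (-r * t k) ≤ C * exp (-m * t k)) : m ≤ r := by
  by_contra hm
  rw [not_le] at hm
  obtain ⟨k, hk⟩ := exists_nat_gt (C / c / (m - r))
  replace hk := hk.trans_le (ht k)
  rw [div_lt_iff₀ (sub_pos.2 hm), div_lt_iff₀ hc] at hk
  have h1 := mul_le_mul_of_nonneg_right (h k) (exp_pos (m * t k)).le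
  rw [mul_assoc, mul_assoc, ← exp_add, ← exp_add, neg_mul m, neg_add_cancel, exp_zero] at h1
  have h2 := mul_le_mul_of_nonneg_left (add_one_le_exp (-r * t k + m * t k)) hc.le
  nlinarith

theorem lower (hn : 1 ≤ n) : ∃ c K : ℝ, 0 < c ∧ 0 ≤ K ∧ ∀ β : ℝ, 0 < β →
    (∀ (V : Type) [Fintype V] (G : SimpleGraph V) (x y : V), G.Reachable x y →
      c * exp (-(K / √β) * G.dist x y) ≤ ∫ σ, dot (σ x) (σ y) ∂model n β G) ∧
    ∀ μ, IsState n β μ →
      (∀ x y, c * exp (-(K / √β) * len x y) ≤ ∫ σ, dot (σ x) (σ y) ∂μ) ∧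
      ∀ C m : ℝ, (∀ x y, ∫ σ, dot (σ x) (σ y) ∂μ ≤ C * exp (-m * len x y)) → m ≤ K / √β := by
  have : NeZero n := ⟨by omega⟩
  obtain ⟨c, K, hc, hK, H⟩ := lower_dot (n := n)
  refine ⟨c, 2 * K, hc, by positivity, fun β hβ => ⟨fun V _ G x y h => ?_, fun μ hμ => ?_⟩⟩
  · obtain ⟨p, hp⟩ := h.exists_walk_length_eq_dist
    refine le_trans ?_ (H V G β hβ x y p)
    rw [hp, neg_mul, neg_mul]
    gcongr
    linarith
  have h1 : ∀ x y, c * exp (-(2 * K / √β) * len x y) ≤ ∫ σ, dot (σ x) (σ y) ∂μ := fun x y => by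
    classical
    obtain ⟨p, a, b, h1, _, η, h2⟩ := hμ
    refine ge_of_tendsto (h2 (fun σ => dot (σ x) (σ y)) {x, y} (continuous_dot' x y)
      fun σ τ h => congrArg₂ dot (h x (by simp)) (h y (by simp))) ?_
    filter_upwards [h1 x, h1 y] with k hx hy
    obtain ⟨w, hw⟩ := box_walk (p k) (a k) (b k) ⟨y, hy⟩ _ ⟨x, hx⟩ rfl
    simp only [extend_eq, dif_pos hx, dif_pos hy]
    refine le_trans ?_ (H _ _ β hβ _ _ w)
    have h3 := mul_le_mul_of_nonneg_left (taxi_le x y) (div_nonneg hK (sqrt_nonneg β))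
    rw [hw]
    gcongr c * exp ?_
    calc _ = -(K / √β * (2 * len x y)) := by ring
      _ ≤ _ := by linarith
  refine ⟨h1, fun C m h => mass_le (C := C) hc (fun _ => le_rfl) fun k => ?_⟩
  have h2 : len ((k : ℤ), 0) 0 = k := by simp [len]
  rw [← h2]
  exact (h1 _ _).trans (h _ _)

end Vale.Agent.N163X

end
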