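import Mathlib.Algebra.QuadraticDiscriminant
import Mathlib.Analysis.SpecialFunctions.Gaussian.FourierTransform
import Vale.Agent.N163X.Lower
import Vale.Agent.N163X.States

section

/-!
# P163: the Cauchy-Schwarz inequality for the Gaussian kernel
-/

open MeasureTheory Set Real

namespace Vale.Agent.N163X

variable {Ω W : Type} [TopologicalSpace Ω] [CompactSpace Ω] [SecondCountableTopology Ω]
  [MeasurableSpace Ω] [BorelSpace Ω] (P : Measure Ω) [IsFiniteMeasure P]
  [NormedAddCommGroup W] [InnerProductSpace ℝ W] [FiniteDimensional ℝ W]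

/-- The bilinear form given by the Gaussian kernel. -/
noncomputable def ker (F : Ω → ℝ) (c : Ω → W) (G : Ω → ℝ) (d : Ω → W) : ℝ :=
  ∫ z, F z.1 * G z.2 * exp (-‖c z.1 - d z.2‖ ^ 2 / 2) ∂P.prod P

omit [FiniteDimensional ℝ W] in
theorem gauss_split (u v w : W) : exp (-‖u - w‖ ^ 2) * exp (-‖v - w‖ ^ 2) =
    exp (-‖u - v‖ ^ 2 / 2) * exp (-2 * ‖w - (1 / 2 : ℝ) • (u + v)‖ ^ 2) := by
  have h := parallelogram_law_with_norm ℝ (u - w) (v - w)
  have h1 : u - w + (v - w) = (-2 : ℝ) • (w - (1 / 2 : ℝ) • (u + v)) := by module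
  rw [h1, norm_smul, sub_sub_sub_cancel_right] at h
  rw [← exp_add, ← exp_add]
  congr 1
  norm_num at h ⊢
  nlinarith

theorem ker_cs {F G : Ω → ℝ} {c d : Ω → W} (hF : Continuous F) (hG : Continuous G)
    (hc : Continuous c) (hd : Continuous d) :
    0 ≤ ker P F c F c ∧ ker P F c G d ^ 2 ≤ ker P F c F c * ker P G d G d := by
  borelize W
  set c0 := ∫ w : W, exp (-2 * ‖w‖ ^ 2) with hc0
  have h0 : 0 < c0 := by
    rw [hc0, GaussianFourier.integral_rexp_neg_mul_sq_norm two_pos]
    positivity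
  have h1 : Integrable fun w : W => exp (-2 * ‖w‖ ^ 2) := Integrable.of_integral_ne_zero h0.ne'
  set a : (Ω → ℝ) → (Ω → W) → W → ℝ := fun F c w => ∫ s, F s * exp (-‖c s - w‖ ^ 2) ∂P with ha
  have key : ∀ {F G : Ω → ℝ} {c d : Ω → W}, Continuous F → Continuous G → Continuous c →
      Continuous d → Integrable (fun w => a F c w * a G d w) ∧
        ∫ w, a F c w * a G d w = c0 * ker P F c G d := fun {F G c d} hF hG hc hd => by
    set Φ : (Ω × Ω) × W → ℝ := fun q => F q.1.1 * exp (-‖c q.1.1 - q.2‖ ^ 2) *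
      (G q.1.2 * exp (-‖d q.1.2 - q.2‖ ^ 2)) with hΦ
    have h2 : ∀ z w, Φ (z, w) = F z.1 * G z.2 * exp (-‖c z.1 - d z.2‖ ^ 2 / 2) *
        exp (-2 * ‖w - (1 / 2 : ℝ) • (c z.1 + d z.2)‖ ^ 2) := fun z w => by
      rw [mul_assoc, ← gauss_split]
      simp only [hΦ]
      ring
    have h3 : ∀ v : W, ∫ w, exp (-2 * ‖w - v‖ ^ 2) = c0 := fun v =>
      integral_sub_right_eq_self (fun w : W => exp (-2 * ‖w‖ ^ 2)) v
    have h4 : Integrable Φ ((P.prod P).prod volume) := by
      refine (integrable_prod_iff (Continuous.aestronglyMeasurable (by fun_prop))).2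
        ⟨Filter.Eventually.of_forall fun z => ?_, ?_⟩
      · simp only [h2]
        exact (h1.comp_sub_right _).const_mul _
      · simp only [h2, norm_mul, norm_of_nonneg (exp_pos _).le, integral_const_mul, h3]
        exact int_cont _ (by fun_prop)
    have h5 : ∀ w, ∫ z, Φ (z, w) ∂P.prod P = a F c w * a G d w := fun w =>
      integral_prod_mul (fun s => F s * exp (-‖c s - w‖ ^ 2)) fun s => G s * exp (-‖d s - w‖ ^ 2)
    refine ⟨by simpa only [h5] using h4.integral_prod_right, ?_⟩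
    simp only [← h5]
    rw [← integral_prod_symm _ h4, integral_prod _ h4]
    simp only [h2, integral_const_mul, h3, integral_mul_const]
    exact mul_comm _ _
  obtain ⟨i1, e1⟩ := key hF hF hc hc
  obtain ⟨i2, e2⟩ := key hF hG hc hd
  obtain ⟨i3, e3⟩ := key hG hG hd hd
  refine ⟨nonneg_of_mul_nonneg_right ?_ h0, ?_⟩
  · rw [← e1]
    exact integral_nonneg fun w => mul_self_nonneg _
  have h6 := discrim_le_zero (a := ker P F c F c) (b := 2 * ker P F c G d) (c := ker P G d G d)
    fun x => by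
      refine nonneg_of_mul_nonneg_right ?_ h0
      have h7 : 0 ≤ ∫ w, (x * x * (a F c w * a F c w) + 2 * x * (a F c w * a G d w) +
          a G d w * a G d w) :=
        integral_nonneg fun w => (sq_nonneg (x * a F c w + a G d w)).trans (le_of_eq (by ring))
      rw [integral_add ((i1.const_mul _).fun_add (i2.const_mul _)) i3,
        integral_add (i1.const_mul _) (i2.const_mul _), integral_const_mul, integral_const_mul,
        e1, e2, e3] at h7
      linarith
  rw [discrim] at h6
  nlinarith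

end Vale.Agent.N163X

end

section

/-!
# P163: reflection positivity and Gaussian domination on a graph with reflections
-/

open MeasureTheory Set Real
open scoped RealInnerProductSpace

namespace Vale.Agent.N163X

variable {n : ℕ} {V : Type} [Fintype V] {G : SimpleGraph V}

/-- A reflection of a graph in a plane that cuts edges. -/
structure Refl (G : SimpleGraph V) where
  /-- the reflection -/
  θ : V → V
  /-- the positive half -/
  pos : V → Prop
  inv : ∀ x, θ (θ x) = x
  swap : ∀ x, pos (θ x) ↔ ¬pos x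
  adj : ∀ x y, G.Adj x y → G.Adj (θ x) (θ y)
  cut : ∀ x y, pos x → ¬pos y → G.Adj x y → y = θ x

theorem Refl.prod_θ {M : Type} [CommMonoid M] (R : Refl G) (f : V → M) :
    ∏ x, f x = ∏ x, f (R.θ x) :=
  (Equiv.prod_comp ⟨R.θ, R.θ, R.inv, R.inv⟩ f).symm

section sums

variable {M : Type} [AddCommMonoid M]

theorem Refl.sum_θ (R : Refl G) (f : V → M) : ∑ x, f x = ∑ x, f (R.θ x) :=
  (Equiv.sum_comp ⟨R.θ, R.θ, R.inv, R.inv⟩ f).symm

open Classical in
/-- Sum over the ordered pairs of neighbours. -/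
noncomputable def dsum (G : SimpleGraph V) (φ : V → V → M) : M :=
  ∑ x, ∑ y, if G.Adj x y then φ x y else 0

open Classical in
/-- Sum over the ordered pairs of neighbours in the positive half. -/
noncomputable def Refl.half (R : Refl G) (φ : V → V → M) : M :=
  ∑ x, ∑ y, if R.pos x ∧ R.pos y ∧ G.Adj x y then φ x y else 0

open Classical in
/-- Sum over the edges that are cut. -/
noncomputable def Refl.cutsum (R : Refl G) (φ : V → V → M) : M :=
  ∑ x, if R.pos x ∧ G.Adj x (R.θ x) then φ x (R.θ x) + φ (R.θ x) x else 0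

theorem Refl.half_congr (R : Refl G) {φ ψ : V → V → M}
    (h : ∀ x y, R.pos x → R.pos y → φ x y = ψ x y) : R.half φ = R.half ψ :=
  Finset.sum_congr rfl fun x _ => Finset.sum_congr rfl fun y _ => by
    split_ifs with h1
    exacts [h x y h1.1 h1.2.1, rfl]

theorem Refl.split (R : Refl G) (φ : V → V → M) :
    dsum G φ = R.half φ + R.half (fun x y => φ (R.θ x) (R.θ y)) + R.cutsum φ := by
  classical
  have ha : ∀ x y, G.Adj (R.θ x) (R.θ y) ↔ G.Adj x y := fun x y =>
    ⟨fun h => by simpa only [R.inv] using R.adj _ _ h, R.adj x y⟩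
  have h1 : R.half (fun x y => φ (R.θ x) (R.θ y)) =
      ∑ x, ∑ y, if ¬R.pos x ∧ ¬R.pos y ∧ G.Adj x y then φ x y else 0 := by
    rw [Refl.half, R.sum_θ]
    refine Finset.sum_congr rfl fun x _ => ?_
    rw [R.sum_θ]
    simp only [R.swap, ha, R.inv]
  have h2 : ∀ ψ : V → V → M, ∀ x, (∑ y, if R.pos x ∧ ¬R.pos y ∧ G.Adj x y then ψ x y else 0) =
      if R.pos x ∧ G.Adj x (R.θ x) then ψ x (R.θ x) else 0 := fun ψ x => by
    rw [Finset.sum_eq_single (R.θ x) (fun y _ hy => if_neg fun h => hy (R.cut x y h.1 h.2.1 h.2.2))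
      (by simp)]
    exact if_congr (by rw [R.swap]; tauto) rfl rfl
  have h3 : R.cutsum φ = (∑ x, ∑ y, if R.pos x ∧ ¬R.pos y ∧ G.Adj x y then φ x y else 0) +
      ∑ x, ∑ y, if R.pos y ∧ ¬R.pos x ∧ G.Adj y x then φ x y else 0 := by
    rw [Finset.sum_comm (f := fun x y => if R.pos y ∧ ¬R.pos x ∧ G.Adj y x then φ x y else 0)]
    simp only [h2 φ, h2 fun x y => φ y x, Refl.cutsum, ← Finset.sum_add_distrib]
    refine Finset.sum_congr rfl fun x _ => ?_
    split_ifs <;> simp
  rw [h1, h3, dsum, Refl.half]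
  simp only [← Finset.sum_add_distrib]
  refine Finset.sum_congr rfl fun x _ => Finset.sum_congr rfl fun y _ => ?_
  rw [G.adj_comm y x]
  by_cases hx : R.pos x <;> by_cases hy : R.pos y <;> simp [hx, hy]

end sums

/-- The energy with a field `h` on the ordered pairs of neighbours. -/
noncomputable def ham (G : SimpleGraph V) (β : ℝ) (h : V → V → P163.E n) (σ : V → Sph n) : ℝ :=
  -(β / 4) * dsum G fun x y => ‖(σ x).1 - (σ y).1 - h x y‖ ^ 2

theorem continuous_ham (β : ℝ) (h : V → V → P163.E n) : Continuous (ham G β h) :=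
  continuous_const.mul (continuous_finsetSum _ fun x _ => continuous_finsetSum _ fun y _ => by
    split_ifs <;> fun_prop)

/-- The product of the uniform measures. -/
noncomputable abbrev base (n : ℕ) (V : Type) [Fintype V] : Measure (V → Sph n) :=
  Measure.pi fun _ => unif n

theorem base_prob [NeZero n] : IsProbabilityMeasure (base n V) := by
  have := unif_prob (n := n)
  infer_instance

namespace Refl

variable (R : Refl G)

open Classical in
/-- The configuration `s` on the positive half, the mirror image of `t` on the other half. -/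
noncomputable def glue (z : (V → Sph n) × (V → Sph n)) : V → Sph n :=
  fun x => if R.pos x then z.1 x else z.2 (R.θ x)

omit [Fintype V] in
theorem continuous_glue : Continuous (R.glue (n := n)) :=
  continuous_pi fun x => by
    unfold glue
    split_ifs <;> fun_prop

theorem glue_mp [NeZero n] :
    MeasurePreserving R.glue ((base n V).prod (base n V)) (base n V) := by
  have := unif_prob (n := n)
  have := base_prob (n := n) (V := V)
  have h2 := @Measure.prod_prod _ _ _ _ (base n V) (base n V)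
    (@instSFiniteOfSigmaFinite _ _ _ (IsFiniteMeasure.toSigmaFinite _))
  classical
  refine ⟨R.continuous_glue.measurable, (Measure.pi_eq fun A hA => ?_).symm⟩
  have h1 : R.glue ⁻¹' univ.pi A = (univ.pi fun x => if R.pos x then A x else univ) ×ˢ
      univ.pi fun y => if R.pos y then A (R.θ y) else univ := by
    ext ⟨s, t⟩
    simp only [mem_preimage, mem_univ_pi, mem_prod, glue]
    refine ⟨fun h => ⟨fun x => ?_, fun y => ?_⟩, fun h x => ?_⟩
    · split_ifs with hx
      exacts [by simpa [hx] using h x, trivial]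
    · split_ifs with hy
      exacts [by simpa [R.swap, hy, R.inv] using h (R.θ y), trivial]
    · split_ifs with hx
      exacts [by simpa [hx] using h.1 x, by simpa [R.swap, hx, R.inv] using h.2 (R.θ x)]
  rw [Measure.map_apply R.continuous_glue.measurable (MeasurableSet.univ_pi hA), h1]
  refine (h2 _ _).trans ?_
  rw [Measure.pi_pi, Measure.pi_pi,
    R.prod_θ fun y => unif n (if R.pos y then A (R.θ y) else univ), ← Finset.prod_mul_distrib]
  refine Finset.prod_congr rfl fun x _ => ?_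
  by_cases hx : R.pos x <;> simp [R.swap, R.inv, hx]

/-- The energy of the positive half. -/
noncomputable def en (β : ℝ) (h : V → V → P163.E n) (s : V → Sph n) : ℝ :=
  -(β / 4) * R.half fun x y => ‖(s x).1 - (s y).1 - h x y‖ ^ 2

theorem continuous_en (β : ℝ) (h : V → V → P163.E n) : Continuous (R.en β h) :=
  continuous_const.mul (continuous_finsetSum _ fun x _ => continuous_finsetSum _ fun y _ => by
    split_ifs <;> fun_prop)

open Classical in
/-- Two families of vectors along the cut, as one vector. -/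
noncomputable def vec (β : ℝ) (u v : V → P163.E n) : PiLp 2 fun _ : V × Bool => P163.E n :=
  WithLp.toLp 2 fun q =>
    if R.pos q.1 ∧ G.Adj q.1 (R.θ q.1) then √(β / 2) • (if q.2 then u q.1 else v q.1) else 0

/-- The spins along the cut. -/
noncomputable def dv (β : ℝ) (s : V → Sph n) := R.vec β (fun x => (s x).1) fun x => (s x).1

/-- The field along the cut. -/
noncomputable def vh (β : ℝ) (h : V → V → P163.E n) :=
  R.vec β (fun x => -h x (R.θ x)) fun x => h (R.θ x) x

omit [Fintype V] in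
theorem continuous_dv (β : ℝ) : Continuous (R.dv (n := n) β) :=
  (PiLp.continuous_toLp 2 _).comp (continuous_pi fun q => by split_ifs <;> fun_prop)

theorem ham_glue {β : ℝ} (hβ : 0 ≤ β) (h : V → V → P163.E n) (z : (V → Sph n) × (V → Sph n)) :
    ham G β h (R.glue z) = R.en β h z.1 + R.en β (fun x y => h (R.θ x) (R.θ y)) z.2 +
      -‖R.dv β z.1 + R.vh β h - R.dv β z.2‖ ^ 2 / 2 := by
  have h1 : ‖R.dv β z.1 + R.vh β h - R.dv β z.2‖ ^ 2 =
      β / 2 * R.cutsum fun x y => ‖(R.glue z x).1 - (R.glue z y).1 - h x y‖ ^ 2 := by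
    rw [PiLp.norm_sq_eq_of_L2, Fintype.sum_prod_type, cutsum, Finset.mul_sum]
    refine Finset.sum_congr rfl fun x _ => ?_
    by_cases hx : R.pos x ∧ G.Adj x (R.θ x)
    · simp only [Fintype.sum_bool, dv, vh, vec, PiLp.sub_apply, PiLp.add_apply, hx, and_self,
        if_true, Bool.false_eq_true, if_false, ← smul_add, ← smul_sub, norm_smul, mul_pow,
        Real.norm_eq_abs, sq_abs, sq_sqrt (div_nonneg hβ zero_le_two), glue, R.swap, R.inv,
        not_true_eq_false, mul_add]
      congr 3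
      · exact congrArg _ (by abel)
      · rw [← norm_neg]
        exact congrArg _ (by abel)
    · simp [dv, vh, vec, hx]
  rw [ham, R.split, h1, en, en,
    R.half_congr (ψ := fun x y => ‖(z.1 x).1 - (z.1 y).1 - h x y‖ ^ 2)
      fun x y hx hy => by simp only [glue, hx, hy, if_true],
    R.half_congr (φ := fun x y => ‖(R.glue z (R.θ x)).1 - _ - _‖ ^ 2)
      (ψ := fun x y => ‖(z.2 x).1 - (z.2 y).1 - h (R.θ x) (R.θ y)‖ ^ 2)
      fun x y hx hy => by simp only [glue, R.swap, R.inv, hx, hy, not_true_eq_false, if_false]]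
  ring

theorem eq_ker [NeZero n] {β : ℝ} (hβ : 0 ≤ β) (h : V → V → P163.E n) {f g : (V → Sph n) → ℝ}
    (hf : Continuous f) (hg : Continuous g) (df : DependsOn f {x | R.pos x})
    (dg : DependsOn g {x | R.pos x}) :
    ∫ σ, f σ * g (fun x => σ (R.θ x)) * exp (ham G β h σ) ∂base n V =
      ker (base n V) (fun s => f s * exp (R.en β h s)) (fun s => R.dv β s + R.vh β h)
        (fun s => g s * exp (R.en β (fun x y => h (R.θ x) (R.θ y)) s)) (R.dv β) := by
  have hc := continuous_ham (G := G) β h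
  conv_lhs => rw [← R.glue_mp.map_eq]
  rw [integral_map R.glue_mp.measurable.aemeasurable (Continuous.aestronglyMeasurable (by fun_prop))]
  refine integral_congr_ae (Filter.Eventually.of_forall fun z => ?_)
  have h1 : f (R.glue z) = f z.1 := df fun x hx => if_pos hx
  have h2 : g (fun x => R.glue z (R.θ x)) = g z.2 := dg fun x hx => by
    rw [glue, if_neg fun h => (R.swap x).1 h hx, R.inv]
  simp only [h1, h2, R.ham_glue hβ, exp_add]
  ring

open Classical in
/-- The field of the positive half and its mirror image. -/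
noncomputable def hp (h : V → V → P163.E n) : V → V → P163.E n := fun x y =>
  if R.pos x ∧ R.pos y then h x y else if ¬R.pos x ∧ ¬R.pos y then h (R.θ x) (R.θ y) else 0

theorem Z_hp [NeZero n] {β : ℝ} (hβ : 0 ≤ β) (h : V → V → P163.E n) :
    ∫ σ, exp (ham G β (R.hp h) σ) ∂base n V = ker (base n V) (fun s => 1 * exp (R.en β h s))
      (R.dv β) (fun s => 1 * exp (R.en β h s)) (R.dv β) := by
  have h1 := R.eq_ker hβ (R.hp h) (f := fun _ => 1) (g := fun _ => 1) continuous_const
    continuous_const (fun _ _ _ => rfl) fun _ _ _ => rfl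
  have h2 : R.en β (R.hp h) = R.en β h := funext fun s =>
    congrArg (-(β / 4) * ·) (R.half_congr fun x y hx hy => by simp [hp, hx, hy])
  have h3 : R.en β (fun x y => R.hp h (R.θ x) (R.θ y)) = R.en β h := funext fun s =>
    congrArg (-(β / 4) * ·) (R.half_congr fun x y hx hy => by simp [hp, hx, hy, R.swap, R.inv])
  have h4 : R.vh β (R.hp h) = 0 := by
    ext1 q
    simp [vh, vec, hp, R.swap]
  simpa only [h2, h3, h4, add_zero, one_mul] using h1

theorem Z_sq [NeZero n] {β : ℝ} (hβ : 0 ≤ β) (h : V → V → P163.E n) :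
    (∫ σ, exp (ham G β h σ) ∂base n V) ^ 2 ≤ (∫ σ, exp (ham G β (R.hp h) σ) ∂base n V) *
      ∫ σ, exp (ham G β (R.hp fun x y => h (R.θ x) (R.θ y)) σ) ∂base n V := by
  have := unif_prob (n := n)
  have h1 := R.eq_ker hβ h (f := fun _ => 1) (g := fun _ => 1) continuous_const
    continuous_const (fun _ _ _ => rfl) fun _ _ _ => rfl
  have c1 := R.continuous_en β h
  have c2 := R.continuous_en β fun x y => h (R.θ x) (R.θ y)
  have c3 := R.continuous_dv (n := n) β
  have h2 := (ker_cs (base n V) (F := fun s => 1 * exp (R.en β h s))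
    (c := fun s => R.dv β s + R.vh β h) (d := R.dv β)
    (G := fun s => 1 * exp (R.en β (fun x y => h (R.θ x) (R.θ y)) s)) (by fun_prop) (by fun_prop)
    (by fun_prop) c3).2
  rw [← h1] at h2
  rw [R.Z_hp hβ, R.Z_hp hβ]
  simpa only [ker, add_sub_add_right_eq_sub, one_mul] using h2

theorem rp [NeZero n] {β : ℝ} (hβ : 0 ≤ β) {f g : (V → Sph n) → ℝ}
    (hf : Continuous f) (hg : Continuous g) (df : DependsOn f {x | R.pos x})
    (dg : DependsOn g {x | R.pos x}) :
    0 ≤ ∫ σ, f σ * f (fun x => σ (R.θ x)) * exp (ham G β 0 σ) ∂base n V ∧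
    (∫ σ, f σ * g (fun x => σ (R.θ x)) * exp (ham G β 0 σ) ∂base n V) ^ 2 ≤
      (∫ σ, f σ * f (fun x => σ (R.θ x)) * exp (ham G β 0 σ) ∂base n V) *
        ∫ σ, g σ * g (fun x => σ (R.θ x)) * exp (ham G β 0 σ) ∂base n V := by
  have := unif_prob (n := n)
  have h4 : R.vh β (0 : V → V → P163.E n) = 0 := by
    ext1 q
    simp [vh, vec]
  have c1 := R.continuous_en (n := n) β 0
  have c3 := R.continuous_dv (n := n) β
  rw [R.eq_ker hβ 0 hf hf df df, R.eq_ker hβ 0 hf hg df dg, R.eq_ker hβ 0 hg hg dg dg]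
  simp only [h4, add_zero]
  exact ker_cs (base n V) (F := fun s => f s * exp (R.en β 0 s)) (c := R.dv β) (d := R.dv β)
    (G := fun s => g s * exp (R.en β 0 s)) (by fun_prop) (by fun_prop) c3 c3

end Refl

open Classical in
/-- The number of ordered pairs of neighbours with a nonzero field. -/
noncomputable def cnt (G : SimpleGraph V) (h : V → V → P163.E n) : ℕ :=
  dsum G fun x y => if h x y = 0 then 0 else 1

theorem Refl.cnt_hp (R : Refl G) (h : V → V → P163.E n) : open Classical in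
    cnt G (R.hp h) = 2 * R.half fun x y => if h x y = 0 then 0 else 1 := by
  classical
  rw [cnt, R.split, two_mul, R.half_congr (ψ := fun x y => if h x y = 0 then 0 else 1)
    fun x y hx hy => by simp [Refl.hp, hx, hy],
    R.half_congr (φ := fun x y => if R.hp h (R.θ x) (R.θ y) = 0 then 0 else 1)
      (ψ := fun x y => if h x y = 0 then 0 else 1)
      fun x y hx hy => by simp [Refl.hp, hx, hy, R.swap, R.inv], Nat.add_eq_left]
  refine Finset.sum_eq_zero fun x _ => ?_
  by_cases hx : R.pos x <;> simp [Refl.hp, hx, R.swap]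

theorem domination [NeZero n] (hG : ∀ x y, G.Adj x y → ∃ R : Refl G, ¬(R.pos x ↔ R.pos y))
    {β : ℝ} (hβ : 0 ≤ β) (h : V → V → P163.E n) :
    ∫ σ, exp (ham G β h σ) ∂base n V ≤ ∫ σ, exp (ham G β 0 σ) ∂base n V := by
  classical
  have := unif_prob (n := n)
  set Z : (V → V → P163.E n) → ℝ := fun h => ∫ σ, exp (ham G β h σ) ∂base n V with hZ
  set T : Finset (P163.E n) := insert 0 (Finset.univ.image fun q : V × V => h q.1 q.2) with hT
  set H := Fintype.piFinset fun _ : V => Fintype.piFinset fun _ : V => T with hH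
  have mem : ∀ k, k ∈ H ↔ ∀ x y, k x y ∈ T := fun k => by simp only [hH, Fintype.mem_piFinset]
  have hh : h ∈ H := (mem h).2 fun x y =>
    Finset.mem_insert_of_mem (Finset.mem_image.2 ⟨(x, y), Finset.mem_univ _, rfl⟩)
  obtain ⟨m, hm, hmax⟩ := H.exists_max_image Z ⟨h, hh⟩
  have hpos : 0 < Z m := integral_exp_pos (int_cont _ (continuous_exp.comp (continuous_ham β m)))
  have key : ∀ N k, cnt G k = N → k ∈ H → Z k = Z m → Z 0 = Z m := fun N => by
    induction N using Nat.strong_induction_on with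
    | h N ih =>
      intro k hN hk hkm
      by_cases h0 : ∀ x y, G.Adj x y → k x y = 0
      · rw [← hkm]
        refine congrArg (fun f : (V → Sph n) → ℝ => ∫ σ, exp (f σ) ∂base n V) (funext fun σ => ?_)
        refine congrArg (-(β / 4) * ·)
          (Finset.sum_congr rfl fun x _ => Finset.sum_congr rfl fun y _ => ?_)
        split_ifs with hxy
        exacts [by simp only [h0 x y hxy, Pi.zero_apply], rfl]
      push Not at h0
      obtain ⟨x, y, hxy, hk0⟩ := h0
      obtain ⟨R, hR⟩ := hG x y hxy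
      have hp : ∀ k, (∀ x y, k x y ∈ T) → R.hp k ∈ H := fun k hk => (mem _).2 fun x y => by
        unfold Refl.hp
        split_ifs
        exacts [hk _ _, hk _ _, Finset.mem_insert_self _ _]
      have m1 := hp k ((mem k).1 hk)
      have m2 := hp (fun x y => k (R.θ x) (R.θ y)) fun x y => (mem k).1 hk _ _
      have s1 : Z k ^ 2 ≤ Z (R.hp k) * Z (R.hp fun x y => k (R.θ x) (R.θ y)) := R.Z_sq hβ k
      have l1 := hmax _ m1
      have l2 := hmax _ m2
      have p1 : 0 ≤ Z (R.hp k) := integral_nonneg fun _ => (exp_pos _).le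
      have p2 : 0 ≤ Z (R.hp fun x y => k (R.θ x) (R.θ y)) := integral_nonneg fun _ => (exp_pos _).le
      rw [hkm] at s1
      have e1 : Z (R.hp k) = Z m := le_antisymm l1 (by nlinarith)
      have e2 : Z (R.hp fun x y => k (R.θ x) (R.θ y)) = Z m := le_antisymm l2 (by nlinarith)
      have c1 := R.cnt_hp k
      have c2 := R.cnt_hp fun x y => k (R.θ x) (R.θ y)
      have c3 : 1 ≤ R.cutsum fun x y => if k x y = 0 then 0 else 1 := by
        by_cases hx : R.pos x
        · obtain rfl := R.cut x y hx (fun hy => hR (iff_of_true hx hy)) hxy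
          refine le_trans ?_ (Finset.single_le_sum (fun _ _ => Nat.zero_le _) (Finset.mem_univ x))
          simp [hx, hxy, hk0]
        · have hy : R.pos y := by tauto
          obtain rfl := R.cut y x hy hx hxy.symm
          refine le_trans ?_ (Finset.single_le_sum (fun _ _ => Nat.zero_le _) (Finset.mem_univ y))
          simp [hy, hxy.symm, hk0]
      rw [cnt, R.split] at hN
      rcases lt_or_ge (cnt G (R.hp k)) N with h1 | h1
      · exact ih _ h1 _ rfl m1 e1
      · exact ih (cnt G (R.hp fun x y => k (R.θ x) (R.θ y))) (by omega) _ rfl m2 e2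
  exact (hmax h hh).trans (key _ m rfl hm rfl).ge

end Vale.Agent.N163X

end

section

/-!
# P163: the reflections of a periodic box with even sides
-/

namespace Vale.Agent.N163X

/-- The reflection of the cycle `[a, b]` in the midpoint of the bond from `c` to `c + 1`. -/
def rho (a b c x : ℤ) : ℤ :=
  if 2 * c + 1 - x < a then 2 * c + 1 - x + (b - a + 1)
  else if b < 2 * c + 1 - x then 2 * c + 1 - x - (b - a + 1) else 2 * c + 1 - x

/-- The half of the cycle that follows `c`. -/
def ps (M c x : ℤ) : Prop := c < x ∧ x ≤ c + M ∨ x ≤ c - M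

/-- Neighbours in the cycle `[a, b]`. -/
def cyc (a b x y : ℤ) : Prop := y = x + 1 ∨ x = y + 1 ∨ x = b ∧ y = a ∨ y = b ∧ x = a

section cycle

variable {a b c M x y : ℤ} (hM : b - a + 1 = M + M) (hc : a ≤ c ∧ c ≤ b) (hx : a ≤ x ∧ x ≤ b)
  (hy : a ≤ y ∧ y ≤ b)

include hc hx in
theorem rho_mem : a ≤ rho a b c x ∧ rho a b c x ≤ b := by
  unfold rho
  split_ifs <;> omega

include hx in
theorem rho_rho : rho a b c (rho a b c x) = x := by
  unfold rho
  split_ifs <;> omega

include hM hc hx in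
theorem ps_rho : ps M c (rho a b c x) ↔ ¬ps M c x := by
  unfold rho ps
  split_ifs <;> omega

include hc hx hy in
theorem cyc_rho (h : cyc a b x y) : cyc a b (rho a b c x) (rho a b c y) := by
  unfold rho cyc at *
  split_ifs <;> omega

include hM hc hx hy in
theorem cyc_cut (h1 : ps M c x) (h2 : ¬ps M c y) (h : cyc a b x y) : y = rho a b c x := by
  unfold rho cyc ps at *
  split_ifs <;> omega

include hM hx hy in
theorem cyc_sep (h : cyc a b x y) : ∃ c, (a ≤ c ∧ c ≤ b) ∧ ¬(ps M c x ↔ ps M c y) := by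
  unfold cyc ps at *
  rcases h with h | h | h | h
  exacts [⟨x, hx, by omega⟩, ⟨y, hy, by omega⟩, ⟨x, hx, by omega⟩, ⟨y, hy, by omega⟩]

end cycle

variable {a b : ℤ × ℤ}

theorem mem1 (x : Finset.Icc a b) : a.1 ≤ x.1.1 ∧ x.1.1 ≤ b.1 :=
  ⟨(Finset.mem_Icc.1 x.2).1.1, (Finset.mem_Icc.1 x.2).2.1⟩

theorem mem2 (x : Finset.Icc a b) : a.2 ≤ x.1.2 ∧ x.1.2 ≤ b.2 :=
  ⟨(Finset.mem_Icc.1 x.2).1.2, (Finset.mem_Icc.1 x.2).2.2⟩

theorem torus_adj (x y : Finset.Icc a b) : (box true a b).Adj x y ↔ x ≠ y ∧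
    (x.1.2 = y.1.2 ∧ cyc a.1 b.1 x.1.1 y.1.1 ∨ x.1.1 = y.1.1 ∧ cyc a.2 b.2 x.1.2 y.1.2) := by
  simp only [box, SimpleGraph.fromRel_adj, Prod.ext_iff, Prod.fst_add, Prod.snd_add, add_zero,
    true_and, cyc]
  refine and_congr_right fun _ => ⟨?_, ?_⟩
  · rintro ((h | h | h | h) | (h | h | h | h))
    exacts [.inl ⟨h.2.symm, .inl h.1⟩, .inr ⟨h.1.symm, .inl h.2⟩,
      .inl ⟨h.2.2.symm, .inr (.inr (.inl ⟨h.1, h.2.1⟩))⟩,
      .inr ⟨h.2.1.symm, .inr (.inr (.inl ⟨h.1, h.2.2⟩))⟩,
      .inl ⟨h.2, .inr (.inl h.1)⟩, .inr ⟨h.1, .inr (.inl h.2)⟩,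
      .inl ⟨h.2.2, .inr (.inr (.inr ⟨h.1, h.2.1⟩))⟩, .inr ⟨h.2.1, .inr (.inr (.inr ⟨h.1, h.2.2⟩))⟩]
  · rintro (⟨e, h | h | h | h⟩ | ⟨e, h | h | h | h⟩)
    exacts [.inl (.inl ⟨h, e.symm⟩), .inr (.inl ⟨h, e⟩),
      .inl (.inr (.inr (.inl ⟨h.1, h.2, e.symm⟩))), .inr (.inr (.inr (.inl ⟨h.1, h.2, e⟩))),
      .inl (.inr (.inl ⟨e.symm, h⟩)), .inr (.inr (.inl ⟨e, h⟩)),
      .inl (.inr (.inr (.inr ⟨h.1, e.symm, h.2⟩))), .inr (.inr (.inr (.inr ⟨h.1, e, h.2⟩)))]

/-- Reflection of the first coordinate. -/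
def refl1 {M c : ℤ} (hM : b.1 - a.1 + 1 = M + M) (hc : a.1 ≤ c ∧ c ≤ b.1) :
    Refl (box true a b) where
  θ x := ⟨(rho a.1 b.1 c x.1.1, x.1.2), Finset.mem_Icc.2
    ⟨⟨(rho_mem hc (mem1 x)).1, (mem2 x).1⟩, (rho_mem hc (mem1 x)).2, (mem2 x).2⟩⟩
  pos x := ps M c x.1.1
  inv x := Subtype.ext (Prod.ext (rho_rho (mem1 x)) rfl)
  swap x := ps_rho hM hc (mem1 x)
  adj x y h := by
    rw [torus_adj] at h ⊢
    refine ⟨fun e => h.1 (Subtype.ext (Prod.ext ?_ (congrArg (·.1.2) e))), h.2.imp
      (fun h => ⟨h.1, cyc_rho hc (mem1 x) (mem1 y) h.2⟩)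
      fun h => ⟨congrArg (rho a.1 b.1 c) h.1, h.2⟩⟩
    rw [← rho_rho (c := c) (mem1 x), ← rho_rho (c := c) (mem1 y)]
    exact congrArg (fun z => rho a.1 b.1 c z.1.1) e
  cut x y h1 h2 h := by
    rcases ((torus_adj x y).1 h).2 with h | h
    · exact Subtype.ext (Prod.ext (cyc_cut hM hc (mem1 x) (mem1 y) h1 h2 h.2) h.1.symm)
    · exact absurd (h.1 ▸ h1) h2

/-- Reflection of the second coordinate. -/
def refl2 {M c : ℤ} (hM : b.2 - a.2 + 1 = M + M) (hc : a.2 ≤ c ∧ c ≤ b.2) :
    Refl (box true a b) where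
  θ x := ⟨(x.1.1, rho a.2 b.2 c x.1.2), Finset.mem_Icc.2
    ⟨⟨(mem1 x).1, (rho_mem hc (mem2 x)).1⟩, (mem1 x).2, (rho_mem hc (mem2 x)).2⟩⟩
  pos x := ps M c x.1.2
  inv x := Subtype.ext (Prod.ext rfl (rho_rho (mem2 x)))
  swap x := ps_rho hM hc (mem2 x)
  adj x y h := by
    rw [torus_adj] at h ⊢
    refine ⟨fun e => h.1 (Subtype.ext (Prod.ext (congrArg (·.1.1) e) ?_)), h.2.imp
      (fun h => ⟨congrArg (rho a.2 b.2 c) h.1, h.2⟩)
      fun h => ⟨h.1, cyc_rho hc (mem2 x) (mem2 y) h.2⟩⟩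
    rw [← rho_rho (c := c) (mem2 x), ← rho_rho (c := c) (mem2 y)]
    exact congrArg (fun z => rho a.2 b.2 c z.1.2) e
  cut x y h1 h2 h := by
    rcases ((torus_adj x y).1 h).2 with h | h
    · exact absurd (h.1 ▸ h1) h2
    · exact Subtype.ext (Prod.ext h.1.symm (cyc_cut hM hc (mem2 x) (mem2 y) h1 h2 h.2))

theorem torus_cut (h1 : Even (b.1 - a.1 + 1)) (h2 : Even (b.2 - a.2 + 1)) (x y : Finset.Icc a b)
    (h : (box true a b).Adj x y) : ∃ R : Refl (box true a b), ¬(R.pos x ↔ R.pos y) := by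
  obtain ⟨M, hM⟩ := h1
  obtain ⟨N, hN⟩ := h2
  rcases ((torus_adj x y).1 h).2 with h | h
  · obtain ⟨c, hc, h⟩ := cyc_sep hM (mem1 x) (mem1 y) h.2
    exact ⟨refl1 hM hc, h⟩
  · obtain ⟨c, hc, h⟩ := cyc_sep hN (mem2 x) (mem2 y) h.2
    exact ⟨refl2 hN hc, h⟩

end Vale.Agent.N163X

end

section

/-!
# P163: the infrared bound for flows, and reflection positivity of the spin correlation
-/

open MeasureTheory Set Real Filter Topology
open scoped RealInnerProductSpace

namespace Vale.Agent.N163X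

variable {n : ℕ} {V : Type} [Fintype V] {G : SimpleGraph V}

theorem norm_sub_sq_spin (s t : Sph n) : ‖s.1 - t.1‖ ^ 2 = 2 - 2 * dot s t := by
  rw [norm_sub_sq_real, mem_sphere_zero_iff_norm.1 s.2, mem_sphere_zero_iff_norm.1 t.2, dot]
  ring

theorem dsum_add (φ ψ : V → V → ℝ) :
    dsum G (fun x y => φ x y + ψ x y) = dsum G φ + dsum G ψ := by
  simp only [dsum, ← Finset.sum_add_distrib]
  refine Finset.sum_congr rfl fun x _ => Finset.sum_congr rfl fun y _ => ?_
  split_ifs <;> simp

theorem dsum_mul (c : ℝ) (φ : V → V → ℝ) : dsum G (fun x y => c * φ x y) = c * dsum G φ := by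
  simp only [dsum, Finset.mul_sum, mul_ite, mul_zero]

theorem model_ham (β : ℝ) : model n β G = (base n V).tilted (ham G β 0) := by
  rw [model_eq, ← tilted_add_const _ _ (-(β / 4) * dsum G fun _ _ => 2)]
  congr 1
  funext σ
  have h1 : dsum G (fun x y => dot (σ x) (σ y)) = 2 * en G σ := sum_pairs G σ
  simp only [ham, Pi.zero_apply, sub_zero, norm_sub_sq_spin]
  simp only [sub_eq_add_neg, ← neg_mul, dsum_add, dsum_mul, h1]
  ring

theorem integral_model (β : ℝ) (F : (V → Sph n) → ℝ) : ∫ σ, F σ ∂model n β G =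
    (∫ σ, F σ * exp (ham G β 0 σ) ∂base n V) / ∫ σ, exp (ham G β 0 σ) ∂base n V := by
  simp only [model_ham, integral_tilted, smul_eq_mul, div_mul_eq_mul_div, integral_div]
  simp only [mul_comm]

theorem Z_pos [NeZero n] (β : ℝ) : 0 < ∫ σ, exp (ham G β 0 σ) ∂base n V :=
  have := base_prob (n := n) (V := V)
  integral_exp_pos (int_cont _ (continuous_exp.comp (continuous_ham β 0)))

theorem one_add_le_cosh (y : ℝ) : 1 + y ^ 2 / 2 ≤ (exp y + exp (-y)) / 2 := by
  have h1 : cosh y = 1 + 2 * sinh (y / 2) ^ 2 := by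
    have := cosh_two_mul (y / 2)
    rw [cosh_sq', mul_div_cancel₀ _ two_ne_zero] at this
    linarith
  have h2 : (y / 2) ^ 2 ≤ sinh (y / 2) ^ 2 := by
    rw [sq_le_sq, abs_sinh]
    exact self_le_sinh_iff.2 (abs_nonneg _)
  rw [← cosh_eq, h1]
  linarith

theorem infrared [NeZero n] (hG : ∀ x y, G.Adj x y → ∃ R : Refl G, ¬(R.pos x ↔ R.pos y))
    {β : ℝ} (hβ : 0 < β) {ι : Type} [Fintype ι] (xs ys : ι → V) (w : ι → ℝ)
    (hadj : ∀ j, G.Adj (xs j) (ys j)) (hinj : ∀ j k, xs j = xs k → ys j = ys k → j = k)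
    {R : ℝ} (hR : 0 < R) (hw : ∑ j, w j ^ 2 ≤ R) (i : Fin n) :
    ∫ σ, (∑ j, w j * ((σ (xs j)).1 i - (σ (ys j)).1 i)) ^ 2 ∂model n β G ≤ 4 * R / β := by
  classical
  have := model_prob (n := n) β G
  set X : (V → Sph n) → ℝ := fun σ => ∑ j, w j * ((σ (xs j)).1 i - (σ (ys j)).1 i) with hX
  have hXc : Continuous X := by fun_prop
  set φ : V → V → ℝ := fun x y => ∑ j, if xs j = x ∧ ys j = y then w j else 0 with hφ
  have h1 : ∀ g : V → V → ℝ, dsum G (fun x y => φ x y * g x y) = ∑ j, w j * g (xs j) (ys j) :=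
    fun g => by
      have : ∀ x y, (if G.Adj x y then φ x y * g x y else 0) =
          ∑ j, if ys j = y then (if xs j = x then w j * g x y else 0) else 0 := fun x y => by
        rw [hφ, Finset.sum_mul, Finset.ite_sum_zero]
        refine Finset.sum_congr rfl fun j _ => ?_
        by_cases h : xs j = x ∧ ys j = y
        · simp [← h.1, ← h.2, hadj j]
        · rw [if_neg h, zero_mul, ite_self, ← ite_and, if_neg fun h' => h h'.symm]
      simp only [dsum, this]
      simp only [Finset.sum_comm (t := (Finset.univ : Finset ι)), Finset.sum_ite_eq,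
        Finset.mem_univ, if_true]
  have h2 : dsum G (fun x y => φ x y * φ x y) ≤ R := by
    refine le_trans (le_of_eq ?_) hw
    rw [h1]
    refine Finset.sum_congr rfl fun j _ => ?_
    simp only [hφ]
    rw [Finset.sum_eq_single j (fun k _ hk => if_neg fun h => hk (hinj k j h.1 h.2)) (by simp),
      if_pos ⟨rfl, rfl⟩, sq]
  have h3 : ∀ l : ℝ, ∫ σ, exp (l * X σ) ∂model n β G ≤ exp (l ^ 2 * R / β) := fun l => by
    have h4 := domination hG hβ.le
      fun x y => (2 * l / β * φ x y) • (EuclideanSpace.single i (1 : ℝ) : P163.E n)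
    have h5 : ∀ σ, ham G β (fun x y => (2 * l / β * φ x y) • EuclideanSpace.single i (1 : ℝ)) σ =
        l * X σ + ham G β 0 σ - l ^ 2 / β * dsum G fun x y => φ x y * φ x y := fun σ => by
      have h6 : ∀ x y, ‖(σ x).1 - (σ y).1 - (2 * l / β * φ x y) • EuclideanSpace.single i (1 : ℝ)‖ ^ 2
          = ‖(σ x).1 - (σ y).1 - 0‖ ^ 2 + (-(4 * l / β) * (φ x y * ((σ x).1 i - (σ y).1 i)) +
            (2 * l / β) ^ 2 * (φ x y * φ x y)) := fun x y => by
        rw [norm_sub_sq_real, inner_smul_right, EuclideanSpace.inner_single_right, norm_smul]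
        simp only [PiLp.sub_apply, conj_trivial, PiLp.norm_single, norm_one, mul_one,
          Real.norm_eq_abs, sq_abs, sub_zero]
        ring
      simp only [ham, h6, dsum_add, dsum_mul, h1, hX, Pi.zero_apply]
      field_simp
      ring
    simp only [h5, exp_sub, exp_add, integral_div] at h4
    rw [integral_model, div_le_iff₀ (Z_pos β)]
    rw [div_le_iff₀ (exp_pos _), mul_comm] at h4
    refine h4.trans (mul_le_mul_of_nonneg_right (exp_le_exp.2 ?_) (Z_pos β).le)
    rw [mul_div_right_comm]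
    gcongr
  set l := √(β / R) with hl
  have hl2 : l ^ 2 = β / R := sq_sqrt (by positivity)
  have h7 : l ^ 2 * R / β = 1 := by
    rw [hl2]
    field_simp
  have h8 := h3 l
  have h9 := h3 (-l)
  rw [neg_sq] at h9
  rw [h7] at h8 h9
  have h10 := integral_mono (μ := model n β G) (f := fun σ => 1 + l ^ 2 / 2 * X σ ^ 2)
    (g := fun σ => (exp (l * X σ) + exp (-l * X σ)) / 2) (int_cont _ (by fun_prop))
    (int_cont _ (by fun_prop)) fun σ => by
      refine le_trans (le_of_eq ?_)
        ((one_add_le_cosh (l * X σ)).trans (by simp only [neg_mul, le_refl]))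
      ring
  rw [integral_div, integral_add (int_cont _ (by fun_prop)) (int_cont _ (by fun_prop)),
    integral_add (int_cont _ (by fun_prop)) (int_cont _ (by fun_prop)), integral_const_mul,
    hl2] at h10
  simp only [integral_const, probReal_univ, smul_eq_mul, mul_one] at h10
  have h11 : β / R / 2 * ∫ σ, X σ ^ 2 ∂model n β G ≤ 2 := by linarith [exp_one_lt_d9]
  rw [le_div_iff₀ hβ]
  rw [div_div, div_mul_eq_mul_div, div_le_iff₀ (by positivity)] at h11
  linarith

theorem dot_sum (s t : Sph n) : dot s t = ∑ i, s.1 i * t.1 i := by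
  simp [dot, PiLp.inner_apply, mul_comm]

theorem dot_le_one (s t : Sph n) : dot s t ≤ 1 := by
  linarith [norm_sub_sq_spin s t, sq_nonneg ‖s.1 - t.1‖]

theorem Refl.dot_sq [NeZero n] (R : Refl G) {β : ℝ} (hβ : 0 ≤ β) {y p : V} (hy : R.pos y)
    (hp : R.pos p) : (∫ σ, dot (σ y) (σ (R.θ p)) ∂model n β G) ^ 2 ≤
      ∫ σ, dot (σ y) (σ (R.θ y)) ∂model n β G := by
  have := model_prob (n := n) β G
  have hZ := Z_pos (n := n) (G := G) β
  have hd : ∀ {u : V} (i : Fin n), R.pos u → DependsOn (fun σ : V → Sph n => (σ u).1 i)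
      {x | R.pos x} := fun i hu σ τ h => congrArg (fun s : Sph n => s.1 i) (h _ hu)
  have h1 : ∀ u v : V, ∫ σ, dot (σ u) (σ v) ∂model n β G =
      ∑ i, ∫ σ, (σ u).1 i * (σ v).1 i ∂model n β G := fun u v => by
    simp only [dot_sum]
    exact integral_finsetSum _ fun i _ => int_cont _ (by fun_prop)
  have h2 : ∀ {u : V} (i : Fin n), R.pos u →
      0 ≤ ∫ σ, (σ u).1 i * (σ (R.θ u)).1 i ∂model n β G := fun {u} i hu => by
    rw [integral_model]
    exact div_nonneg (R.rp hβ (f := fun σ => (σ u).1 i) (by fun_prop) (by fun_prop) (hd i hu)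
      (hd i hu)).1 hZ.le
  have h3 : ∫ σ, dot (σ p) (σ (R.θ p)) ∂model n β G ≤ 1 := by
    simpa using integral_mono (μ := model n β G) (int_cont _ (continuous_dot' p (R.θ p)))
      (integrable_const 1) fun σ => dot_le_one _ _
  have h4 : 0 ≤ ∫ σ, dot (σ y) (σ (R.θ y)) ∂model n β G := by
    rw [h1]
    exact Finset.sum_nonneg fun i _ => h2 i hy
  refine le_trans ?_ (mul_le_of_le_one_right h4 h3)
  rw [h1, h1, h1]
  refine Finset.sum_sq_le_sum_mul_sum_of_sq_le_mul _ (fun i _ => h2 i hy) (fun i _ => h2 i hp)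
    fun i _ => ?_
  simp only [integral_model, div_pow, div_mul_div_comm, ← sq]
  exact div_le_div_of_nonneg_right (R.rp hβ (f := fun σ => (σ y).1 i) (g := fun σ => (σ p).1 i)
    (by fun_prop) (by fun_prop) (hd i hy) (hd i hp)).2 (sq_nonneg _)

end Vale.Agent.N163X

end
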