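import Mathlib.Analysis.Calculus.BumpFunction.FiniteDimension
import Mathlib.NumberTheory.Harmonic.Bounds
import Vale.Agent.N163X.Refl

section

/-!
# P163: spins stay aligned over exponentially long distances in limits of even tori
-/

open MeasureTheory Real Filter Topology Finset
open Finset.HasAntidiagonal (antidiagonal)

namespace Vale.Agent.N163X

variable {n : ℕ} {β : ℝ} {μ : Measure (ℤ × ℤ → Sph n)}

theorem even_infrared [NeZero n] (hμ : IsEvenState n β μ) (hβ : 0 < β) {ι : Type} (J : Finset ι)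
    (xs ys : ι → ℤ × ℤ) (w : ι → ℝ)
    (hadj : ∀ j ∈ J, ((xs j).1 - (ys j).1).natAbs + ((xs j).2 - (ys j).2).natAbs = 1)
    (hinj : ∀ j ∈ J, ∀ k ∈ J, xs j = xs k → ys j = ys k → j = k) {R : ℝ} (hR : 0 < R)
    (hw : ∑ j ∈ J, w j ^ 2 ≤ R) (i : Fin n) :
    ∫ σ, (∑ j ∈ J, w j * ((σ (xs j)).1 i - (σ (ys j)).1 i)) ^ 2 ∂μ ≤ 4 * R / β := by
  obtain ⟨a, b, ⟨h1, _, η, h2⟩, h3⟩ := hμ
  refine le_of_tendsto (h2 (fun σ => (∑ j ∈ J, w j * ((σ (xs j)).1 i - (σ (ys j)).1 i)) ^ 2)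
    (J.image xs ∪ J.image ys) (by fun_prop)
    fun σ τ h => congrArg (· ^ 2) (sum_congr rfl fun j hj => ?_)) ?_
  · rw [h (xs j) (mem_coe.2 (mem_union_left _ (mem_image_of_mem _ hj))),
      h (ys j) (mem_coe.2 (mem_union_right _ (mem_image_of_mem _ hj)))]
  filter_upwards [J.eventually_all.2 fun j _ => h1 (xs j), J.eventually_all.2 fun j _ => h1 (ys j)]
    with k hx hy
  refine le_trans (le_of_eq ?_) (infrared (torus_cut (h3 k).1 (h3 k).2) hβ (ι := J)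
    (fun j => ⟨xs j, hx j j.2⟩) (fun j => ⟨ys j, hy j j.2⟩) (fun j => w j)
    (fun j => box_step _ _ _ _ _ (hadj j j.2))
    (fun j k e1 e2 => Subtype.ext (hinj j j.2 k k.2 (congrArg (·.1) e1) (congrArg (·.1) e2))) hR
    ((sum_coe_sort J fun j => w j ^ 2).trans_le hw) i)
  refine integral_congr_ae (Eventually.of_forall fun σ => congrArg (· ^ 2) ?_)
  rw [← sum_coe_sort]
  refine sum_congr rfl fun j _ => ?_
  rw [extend_eq, extend_eq, dif_pos (hx j j.2), dif_pos (hy j j.2)]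

theorem even_rp [NeZero n] (hμ : IsEvenState n β μ) (hβ : 0 ≤ β) {c y : ℤ} (h : c < y) :
    (∫ σ, dot (σ (y, 0)) (σ (c, 0)) ∂μ) ^ 2 ≤ ∫ σ, dot (σ (y, 0)) (σ (2 * c + 1 - y, 0)) ∂μ := by
  obtain ⟨a, b, ⟨h1, _, η, h2⟩, h3⟩ := hμ
  have h4 := fun x y : ℤ × ℤ => h2 (fun σ => dot (σ x) (σ y)) {x, y} (continuous_dot' x y)
    fun σ τ h => congrArg₂ dot (h x (by simp)) (h y (by simp))
  refine le_of_tendsto_of_tendsto ((h4 _ _).pow 2) (h4 _ _) ?_
  filter_upwards [h1 (y, 0), h1 (c, 0), h1 (c + 1, 0), h1 (2 * c + 1 - y, 0)] with k m1 m2 m3 m4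
  obtain ⟨M, hM⟩ := (h3 k).1
  have l1 := mem1 ⟨_, m1⟩
  have l2 := mem1 ⟨_, m2⟩
  have l4 := mem1 ⟨_, m4⟩
  dsimp only at l1 l2 l4
  have h5 := (refl1 hM l2).dot_sq (n := n) hβ (y := ⟨_, m1⟩) (p := ⟨_, m3⟩)
    (.inl (by dsimp only; omega)) (.inl (by dsimp only; omega))
  have e1 : (refl1 hM l2).θ ⟨_, m3⟩ = ⟨_, m2⟩ := Subtype.ext (Prod.ext (by
    simp only [refl1, rho]; split_ifs <;> omega) rfl)
  have e2 : (refl1 hM l2).θ ⟨_, m1⟩ = ⟨_, m4⟩ := Subtype.ext (Prod.ext (by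
    simp only [refl1, rho]; split_ifs <;> omega) rfl)
  rw [e1, e2] at h5
  simpa only [extend_eq, dif_pos m1, dif_pos m2, dif_pos m4] using h5

/-- The mean over the `k`-th layer of the quadrant. -/
noncomputable def avg (g : ℕ × ℕ → ℝ) (k : ℕ) : ℝ := (∑ p ∈ antidiagonal k, g p) / (k + 1)

theorem avg_sub (g : ℕ × ℕ → ℝ) (k : ℕ) : avg g k - avg g (k + 1) = ∑ p ∈ antidiagonal k,
    (((p.1 : ℝ) + 1) / ((k + 1) * (k + 2)) * (g p - g (p.1 + 1, p.2)) +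
      ((p.2 : ℝ) + 1) / ((k + 1) * (k + 2)) * (g p - g (p.1, p.2 + 1))) := by
  have h1 := Nat.sum_antidiagonal_succ (n := k) (f := fun p => (p.1 : ℝ) * g p)
  have h2 := Nat.sum_antidiagonal_succ' (n := k) (f := fun p => (p.2 : ℝ) * g p)
  have h3 : ∀ m : ℕ, ∑ p ∈ antidiagonal m, (p.1 : ℝ) * g p + ∑ p ∈ antidiagonal m, (p.2 : ℝ) * g p =
      m * ∑ p ∈ antidiagonal m, g p := fun m => by
    rw [← sum_add_distrib, mul_sum]
    refine sum_congr rfl fun p hp => ?_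
    rw [← HasAntidiagonal.mem_antidiagonal.1 hp]
    push_cast
    ring
  have h4 := h3 k
  have h5 := h3 (k + 1)
  simp only [Nat.cast_zero, zero_mul, zero_add, Nat.cast_add, Nat.cast_one] at h1 h2 h5
  rw [h1, h2] at h5
  simp only [div_mul_eq_mul_div, ← add_div, ← sum_div]
  simp only [mul_sub, sum_add_distrib, sum_sub_distrib, add_mul (_ : ℝ) 1 (g _), one_mul] at h5 ⊢
  rw [eq_div_iff (by positivity), avg, avg]
  push_cast
  have h6 : (k : ℝ) + 1 + 1 = k + 2 := by ring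
  rw [h6, sub_mul, ← mul_assoc, div_mul_cancel₀ _ (by positivity), mul_comm ((k : ℝ) + 1),
    ← mul_assoc, div_mul_cancel₀ _ (by positivity)]
  linear_combination h5 - h4

/-- Points of the quadrant at `u` with directions `s`, `t`. -/
def pt (u : ℤ × ℤ) (s t : ℤ) (p : ℕ × ℕ) : ℤ × ℤ := (u.1 + s * p.1, u.2 + t * p.2)

theorem cone [NeZero n] (hμ : IsEvenState n β μ) (hβ : 0 < β) (u : ℤ × ℤ) {s t : ℤ}
    (hs : s = 1 ∨ s = -1) (ht : t = 1 ∨ t = -1) (l : ℕ) (i : Fin n) :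
    ∫ σ, ((σ u).1 i - avg (fun p => (σ (pt u s t p)).1 i) l) ^ 2 ∂μ ≤ 8 * (1 + log l) / β := by
  have h0 : 0 ≤ log (l : ℝ) := log_natCast_nonneg l
  have h1 := even_infrared hμ hβ (((range l).sigma antidiagonal) ×ˢ (univ : Finset Bool))
    (fun j => pt u s t j.1.2)
    (fun j => pt u s t (if j.2 then (j.1.2.1 + 1, j.1.2.2) else (j.1.2.1, j.1.2.2 + 1)))
    (fun j => (if j.2 then (j.1.2.1 : ℝ) + 1 else (j.1.2.2 : ℝ) + 1) / ((j.1.1 + 1) * (j.1.1 + 2)))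
    (R := 2 * (1 + log l)) ?_ ?_ (by positivity) ?_ i
  · refine le_trans (le_of_eq ?_) (h1.trans (le_of_eq (by ring)))
    refine integral_congr_ae (Eventually.of_forall fun σ => congrArg (· ^ 2) ?_)
    have h2 := sum_range_sub' (avg fun p => (σ (pt u s t p)).1 i) l
    simp only [avg_sub] at h2
    simp only [sum_product, sum_sigma, Fintype.sum_bool, if_true, Bool.false_eq_true, if_false, h2]
    simp [avg, pt]
  · rintro ⟨⟨k, p, q⟩, e⟩ -
    rcases hs with rfl | rfl <;> rcases ht with rfl | rfl <;> cases e <;> simp [pt]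
  · rintro ⟨⟨k, p, q⟩, e⟩ h1 ⟨⟨k', p', q'⟩, e'⟩ h2 e1 e2
    simp only [mem_product, mem_sigma, HasAntidiagonal.mem_antidiagonal] at h1 h2
    simp only [pt, Prod.mk.injEq, add_right_inj] at e1 e2
    obtain rfl : p = p' := by rcases hs with rfl | rfl <;> omega
    obtain rfl : q = q' := by rcases ht with rfl | rfl <;> omega
    obtain rfl : k = k' := by omega
    obtain rfl : e = e' := by
      rcases hs with rfl | rfl <;> cases e <;> cases e' <;> simp at e2 ⊢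
    rfl
  · have h2 := harmonic_le_one_add_log l
    simp only [harmonic, Rat.cast_sum, Rat.cast_inv, Rat.cast_natCast] at h2
    refine le_trans ?_ (mul_le_mul_of_nonneg_left h2 zero_le_two)
    simp only [sum_product, sum_sigma, Fintype.sum_bool, if_true, Bool.false_eq_true, if_false,
      mul_sum]
    refine sum_le_sum fun k _ => ?_
    have h3 : ∀ j : ℕ, j ≤ k → (((j : ℝ) + 1) / ((k + 1) * (k + 2))) ^ 2 ≤ (1 / (k + 1)) ^ 2 :=
      fun j hj => by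
        have : (j : ℝ) ≤ k := by exact_mod_cast hj
        gcongr ?_ ^ 2
        rw [div_le_div_iff₀ (by positivity) (by positivity)]
        nlinarith
    refine (sum_le_card_nsmul _ _ (2 * (1 / (k + 1 : ℝ)) ^ 2) fun p hp => ?_).trans (le_of_eq ?_)
    · have := HasAntidiagonal.mem_antidiagonal.1 hp
      linarith [h3 p.1 (by omega), h3 p.2 (by omega)]
    · rw [Nat.card_antidiagonal, nsmul_eq_mul]
      push_cast
      field_simp

theorem sq_tri [IsProbabilityMeasure μ] {f g h : (ℤ × ℤ → Sph n) → ℝ} (hf : Continuous f)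
    (hg : Continuous g) (hh : Continuous h) {A B : ℝ} (h1 : ∫ σ, (f σ - g σ) ^ 2 ∂μ ≤ A)
    (h2 : ∫ σ, (h σ - g σ) ^ 2 ∂μ ≤ B) : ∫ σ, (f σ - h σ) ^ 2 ∂μ ≤ 2 * A + 2 * B := by
  have h3 := integral_mono (μ := μ) (f := fun σ => (f σ - h σ) ^ 2)
    (g := fun σ => 2 * (f σ - g σ) ^ 2 + 2 * (h σ - g σ) ^ 2) (int_cont _ (by fun_prop))
    (int_cont _ (by fun_prop)) fun σ => by
      dsimp only
      nlinarith [sq_nonneg (f σ - g σ + (h σ - g σ))]
  rw [integral_add (int_cont _ (by fun_prop)) (int_cont _ (by fun_prop)), integral_const_mul,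
    integral_const_mul] at h3
  linarith

theorem IsEvenState.prob (hμ : IsEvenState n β μ) : IsProbabilityMeasure μ :=
  let ⟨_, _, h, _⟩ := hμ
  h.2.1

theorem diagonal [NeZero n] (hμ : IsEvenState n β μ) (hβ : 0 < β) (u v : ℤ × ℤ) (l : ℕ)
    (h1 : (u.1 - v.1).natAbs = l) (h2 : (u.2 - v.2).natAbs = l) (i : Fin n) :
    ∫ σ, ((σ u).1 i - (σ v).1 i) ^ 2 ∂μ ≤ 32 * (1 + log l) / β := by
  have := hμ.prob
  obtain ⟨s, hs, e1⟩ : ∃ s : ℤ, (s = 1 ∨ s = -1) ∧ v.1 = u.1 + s * l := by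
    rcases le_total u.1 v.1 with h | h
    exacts [⟨1, .inl rfl, by omega⟩, ⟨-1, .inr rfl, by omega⟩]
  obtain ⟨t, ht, e2⟩ : ∃ t : ℤ, (t = 1 ∨ t = -1) ∧ v.2 = u.2 + t * l := by
    rcases le_total u.2 v.2 with h | h
    exacts [⟨1, .inl rfl, by omega⟩, ⟨-1, .inr rfl, by omega⟩]
  have h3 := cone hμ hβ u hs ht l i
  have h4 := cone hμ hβ v (s := -s) (t := -t) (by omega) (by omega) l i
  have h5 : ∀ σ : ℤ × ℤ → Sph n, avg (fun p => (σ (pt v (-s) (-t) p)).1 i) l =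
      avg (fun p => (σ (pt u s t p)).1 i) l := fun σ => by
    rw [avg, avg, ← Nat.sum_antidiagonal_swap]
    congr 1
    refine sum_congr rfl fun p hp => congrArg (fun z => (σ z).1 i) ?_
    have := HasAntidiagonal.mem_antidiagonal.1 hp
    simp only [pt, e1, e2, ← this, Prod.fst_swap, Prod.snd_swap, Prod.mk.injEq]
    push_cast
    constructor <;> ring
  simp only [h5] at h4
  refine (sq_tri (by fun_prop) (by unfold avg; fun_prop) (by fun_prop) h3 h4).trans (le_of_eq ?_)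
  ring

theorem any_pair [NeZero n] (hμ : IsEvenState n β μ) (hβ : 0 < β) (x y : ℤ × ℤ) (i : Fin n) :
    ∫ σ, ((σ x).1 i - (σ y).1 i) ^ 2 ∂μ ≤ 800 * log (2 + len x y) / β := by
  have := hμ.prob
  have hl : 0 ≤ len x y := sqrt_nonneg _
  have h0 : 1 ≤ 2 * log (2 + len x y) := by
    linarith [log_two_gt_d9, log_le_log two_pos (le_add_of_nonneg_right hl)]
  have hd : ∀ (u v : ℤ × ℤ) (l : ℕ), (u.1 - v.1).natAbs = l → (u.2 - v.2).natAbs = l →
      2 * l ≤ (x.1 - y.1).natAbs + (x.2 - y.2).natAbs + 1 →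
      ∫ σ, ((σ u).1 i - (σ v).1 i) ^ 2 ∂μ ≤ 96 * log (2 + len x y) / β := fun u v l h1 h2 h3 => by
    refine (diagonal hμ hβ u v l h1 h2 i).trans (div_le_div_of_nonneg_right ?_ hβ.le)
    have h4 : log l ≤ log (2 + len x y) := by
      rcases Nat.eq_zero_or_pos l with rfl | h
      · simp only [Nat.cast_zero, log_zero]
        linarith
      · have h5 := taxi_le x y
        have h6 : ((2 * l : ℕ) : ℝ) ≤ ((_ + 1 : ℕ) : ℝ) := Nat.cast_le.2 h3
        rw [Nat.cast_succ, Nat.cast_mul, Nat.cast_ofNat] at h6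
        exact log_le_log (by positivity) (by linarith)
    linarith
  obtain ⟨z, s, t, hz, e1, e2⟩ : ∃ (z : ℤ × ℤ) (s t : ℤ), (z = y ∨ z = (y.1 + 1, y.2)) ∧
      z.1 = x.1 + s + t ∧ z.2 = x.2 + s - t := by
    rcases Int.emod_two_eq_zero_or_one (y.1 - x.1 + (y.2 - x.2)) with h | h
    · exact ⟨y, (y.1 - x.1 + (y.2 - x.2)) / 2, (y.1 - x.1 - (y.2 - x.2)) / 2, .inl rfl, by omega⟩
    · exact ⟨_, (y.1 + 1 - x.1 + (y.2 - x.2)) / 2, (y.1 + 1 - x.1 - (y.2 - x.2)) / 2, .inr rfl,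
        by dsimp only; omega⟩
  have e3 : (z.1 = y.1 ∨ z.1 = y.1 + 1) ∧ z.2 = y.2 := by rcases hz with rfl | rfl <;> simp
  have h1 := hd x (x.1 + s, x.2 + s) s.natAbs (by simp) (by simp) (by omega)
  have h2 := hd z (x.1 + s, x.2 + s) t.natAbs (by dsimp only; omega) (by dsimp only; omega)
    (by omega)
  have h3 := sq_tri (by fun_prop) (by fun_prop) (by fun_prop) h1 h2
  have h4 : ∫ σ, ((σ y).1 i - (σ z).1 i) ^ 2 ∂μ ≤ 4 * 1 / β := by
    rcases hz with rfl | rfl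
    · simp only [sub_self, ne_eq, OfNat.ofNat_ne_zero, not_false_eq_true, zero_pow, integral_zero]
      positivity
    · simpa using even_infrared hμ hβ (univ : Finset Unit) (fun _ => y) (fun _ => (y.1 + 1, y.2))
        (fun _ => 1) (by simp) (by simp) one_pos (by simp) i
  refine (sq_tri (by fun_prop) (by fun_prop) (by fun_prop) h3 h4).trans ?_
  simp only [← mul_div_assoc, ← add_div]
  exact div_le_div_of_nonneg_right (by linarith) hβ.le

theorem aligned [NeZero n] (hμ : IsEvenState n β μ) (hβ : 0 < β) (x y : ℤ × ℤ) :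
    1 - 400 * n * log (2 + len x y) / β ≤ ∫ σ, dot (σ x) (σ y) ∂μ := by
  have := hμ.prob
  have h1 : ∀ σ : ℤ × ℤ → Sph n,
      dot (σ x) (σ y) = 1 - 1 / 2 * ∑ i, ((σ x).1 i - (σ y).1 i) ^ 2 := fun σ => by
    have := norm_sub_sq_spin (σ x) (σ y)
    rw [EuclideanSpace.real_norm_sq_eq] at this
    simp only [PiLp.sub_apply] at this
    linarith
  simp only [h1]
  rw [integral_sub (integrable_const _) (int_cont _ (by fun_prop)), integral_const_mul,
    integral_finsetSum _ fun i _ => int_cont _ (by fun_prop)]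
  have h2 := sum_le_card_nsmul univ _ _ fun i _ => any_pair hμ hβ x y i
  simp only [card_univ, Fintype.card_fin, nsmul_eq_mul] at h2
  simp only [integral_const, probReal_univ, smul_eq_mul, mul_one]
  have h3 : 400 * n * log (2 + len x y) / β = 1 / 2 * (n * (800 * log (2 + len x y) / β)) := by ring
  linarith

end Vale.Agent.N163X

end

section

/-!
# P163: exponentially small mass for even tori; the lattice spacing of a continuum limit
-/

open MeasureTheory Real Filter Topology Finset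
open scoped RealInnerProductSpace ContDiff

namespace Vale.Agent.N163X

variable {n : ℕ}

theorem even_mass [NeZero n] {β : ℝ} {μ : Measure (ℤ × ℤ → Sph n)} (hμ : IsEvenState n β μ)
    (hβ : 6400 * n ≤ β) {C m : ℝ}
    (h : ∀ x y, ∫ σ, dot (σ x) (σ y) ∂μ ≤ C * exp (-m * len x y)) : m ≤ exp (-β / (1600 * n)) := by
  have hn : (0 : ℝ) < n := Nat.cast_pos.2 (NeZero.pos n)
  have hβ0 : 0 < β := lt_of_lt_of_le (by positivity) hβ
  set j := ⌈exp (β / (1600 * n))⌉₊ with hj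
  have hj1 : exp (β / (1600 * n)) ≤ j := Nat.le_ceil _
  have hj2 : (j : ℝ) < exp (β / (1600 * n)) + 1 := Nat.ceil_lt_add_one (exp_pos _).le
  have he : 1 ≤ exp (β / (1600 * n)) := one_le_exp (by positivity)
  have hl : ∀ d : ℕ, len (0, 0) (-(d : ℤ), 0) = d := fun d => by simp [len]
  have h1 : ∀ k : ℕ, exp (-1 * 2 ^ k) ≤
      ∫ σ, dot (σ (0, 0)) (σ (-((2 ^ k * j + 1 : ℕ) : ℤ), 0)) ∂μ := fun k => by
    induction k with
    | zero =>
      refine le_trans ?_ (aligned hμ hβ0 _ _)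
      rw [hl]
      have h2 : log (2 + ((2 ^ 0 * j + 1 : ℕ) : ℝ)) ≤ 4 + β / (1600 * n) := by
        calc _ ≤ log (5 * exp (β / (1600 * n))) := log_le_log (by positivity) (by push_cast; linarith)
          _ ≤ _ := by
            rw [log_mul (by norm_num) (exp_pos _).ne', log_exp]
            linarith [log_le_sub_one_of_pos (by norm_num : (0 : ℝ) < 5)]
      have h3 : 400 * n * log (2 + ((2 ^ 0 * j + 1 : ℕ) : ℝ)) / β ≤ 1 / 2 := by
        rw [div_le_iff₀ hβ0]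
        calc _ ≤ 400 * n * (4 + β / (1600 * n)) := by gcongr
          _ = 1600 * n + β / 4 := by field_simp; ring
          _ ≤ _ := by linarith
      have h4 : exp (-1 * 2 ^ 0) ≤ 1 / 2 := by
        rw [pow_zero, mul_one, exp_neg, ← one_div]
        exact one_div_le_one_div_of_le two_pos (by linarith [add_one_le_exp 1])
      linarith
    | succ k ih =>
      have h2 := even_rp hμ hβ0.le (c := -((2 ^ k * j + 1 : ℕ) : ℤ)) (y := 0) (by omega)
      have h3 : 2 * -((2 ^ k * j + 1 : ℕ) : ℤ) + 1 - 0 = -((2 ^ (k + 1) * j + 1 : ℕ) : ℤ) := by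
        push_cast
        ring
      rw [h3] at h2
      refine le_trans (le_of_eq ?_) ((pow_le_pow_left₀ (exp_pos _).le ih 2).trans h2)
      rw [← exp_nat_mul]
      congr 1
      push_cast
      ring
  have h2 : m * j ≤ 1 := mass_le (C := C * exp (-m)) one_pos (t := fun k => 2 ^ k)
    (fun k => by exact_mod_cast k.lt_two_pow_self.le) fun k => by
      rw [one_mul]
      refine (h1 k).trans ((h _ _).trans (le_of_eq ?_))
      rw [hl, mul_assoc, ← exp_add]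
      congr 2
      push_cast
      ring
  rw [neg_div, exp_neg, ← one_div, le_div_iff₀ (exp_pos _)]
  rcases le_total m 0 with hm | hm
  · nlinarith
  · nlinarith

/-- The sites whose rescaled position lies near the square of size `R`. -/
noncomputable def sq (ε R : ℝ) : Finset (ℤ × ℤ) := Icc (-⌈R / ε⌉, -⌈R / ε⌉) (⌈R / ε⌉, ⌈R / ε⌉)

theorem mem_sq {ε R : ℝ} (hε : 0 < ε) {x : ℤ × ℤ} (h : ‖((ε * x.1, ε * x.2) : ℝ × ℝ)‖ < R) :
    x ∈ sq ε R := by
  have h1 : ∀ z : ℤ, ‖ε * z‖ < R → -⌈R / ε⌉ ≤ z ∧ z ≤ ⌈R / ε⌉ := fun z hz => by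
    rw [norm_mul, norm_of_nonneg hε.le, Real.norm_eq_abs, ← lt_div_iff₀' hε] at hz
    rw [← abs_le]
    exact_mod_cast hz.le.trans (Int.le_ceil _)
  have h2 := h1 x.1 ((norm_fst_le ((ε * x.1, ε * x.2) : ℝ × ℝ)).trans_lt h)
  have h3 := h1 x.2 ((norm_snd_le ((ε * x.1, ε * x.2) : ℝ × ℝ)).trans_lt h)
  exact mem_Icc.2 ⟨⟨h2.1, h3.1⟩, h2.2, h3.2⟩

theorem field_eq {ε R : ℝ} (hε : 0 < ε) (c : ℝ) {f : ℝ × ℝ → P163.E n}
    (hf : ∀ z, R ≤ ‖z‖ → f z = 0) (σ : ℤ × ℤ → Sph n) :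
    field c ε f σ = c * ε ^ 2 * ∑ x ∈ sq ε R, ⟪f (ε * x.1, ε * x.2), (σ x).1⟫ := by
  rw [field, finsum_eq_sum_of_support_subset _ fun x hx => mem_coe.2 (mem_sq hε ?_)]
  exact lt_of_not_ge fun h => hx (by simp [hf _ h])

theorem ceil_le {ε R : ℝ} (hε : 0 < ε) (h1 : ε ≤ 1) : ε * ⌈R / ε⌉ ≤ R + 1 := by
  have := mul_le_mul_of_nonneg_left (Int.ceil_lt_add_one (R / ε)).le hε.le
  rw [mul_add, mul_div_cancel₀ _ hε.ne'] at this
  linarith

theorem field_bound {f : ℝ × ℝ → P163.E n} (hf : IsTest f) : ∃ M : ℝ, 0 < M ∧ ∀ c ε : ℝ, 0 < ε →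
    ε ≤ 1 → ∀ σ, |field c ε f σ| ≤ |c| * M := by
  obtain ⟨R, hR, h1⟩ := hf.2.exists_pos_le_norm
  obtain ⟨M, h2⟩ := hf.1.continuous.bounded_above_of_compact_support hf.2
  have hM : 0 ≤ M := (norm_nonneg _).trans (h2 0)
  refine ⟨(2 * R + 3) ^ 2 * M + 1, by positivity, fun c ε hε hε1 σ => ?_⟩
  rw [field_eq hε c h1, mul_assoc, abs_mul, abs_mul, abs_of_pos (pow_pos hε 2)]
  gcongr
  have h3 : |∑ x ∈ sq ε R, ⟪f (ε * x.1, ε * x.2), (σ x).1⟫| ≤ #(sq ε R) • M :=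
    (abs_sum_le_sum_abs _ _).trans (sum_le_card_nsmul _ _ _ fun x _ =>
      (abs_real_inner_le_norm _ _).trans (by simpa [mem_sphere_zero_iff_norm.1 (σ x).2] using h2 _))
  have h4 : 0 ≤ ⌈R / ε⌉ := Int.ceil_nonneg (by positivity)
  have h5 : (#(sq ε R) : ℝ) = (2 * ⌈R / ε⌉ + 1) ^ 2 := by
    have : ((#(sq ε R) : ℕ) : ℤ) = (2 * ⌈R / ε⌉ + 1) ^ 2 := by
      rw [sq, card_Icc_prod, Nat.cast_mul, Int.card_Icc_of_le _ _ (by dsimp only; omega)]
      dsimp only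
      ring
    exact_mod_cast this
  have h6 : (ε * (2 * ⌈R / ε⌉ + 1)) ^ 2 ≤ (2 * R + 3) ^ 2 :=
    pow_le_pow_left₀ (by positivity) (by linarith [ceil_le (R := R) hε hε1]) 2
  rw [nsmul_eq_mul, h5] at h3
  calc _ ≤ ε ^ 2 * ((2 * ⌈R / ε⌉ + 1) ^ 2 * M) := by gcongr
    _ = (ε * (2 * ⌈R / ε⌉ + 1)) ^ 2 * M := by ring
    _ ≤ _ := by nlinarith

theorem len_sq {ε R : ℝ} (hε : 0 < ε) (h1 : ε ≤ 1) {x y : ℤ × ℤ} (hx : x ∈ sq ε R)
    (hy : y ∈ sq ε R) : ε * len x y ≤ 4 * (R + 1) := by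
  simp only [sq, mem_Icc, Prod.le_def] at hx hy
  have h2 : |x.1 - y.1| + |x.2 - y.2| ≤ 4 * ⌈R / ε⌉ := by
    simp only [Int.abs_eq_natAbs]
    omega
  have h3 : |(x.1 - y.1 : ℝ)| + |(x.2 - y.2 : ℝ)| ≤ 4 * ⌈R / ε⌉ := by exact_mod_cast h2
  have h4 : len x y ≤ |(x.1 - y.1 : ℝ)| + |(x.2 - y.2 : ℝ)| := by
    refine sqrt_le_iff.2 ⟨by positivity, ?_⟩
    rw [add_sq, sq_abs, sq_abs]
    have : 0 ≤ 2 * |(x.1 - y.1 : ℝ)| * |(x.2 - y.2 : ℝ)| := by positivity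
    linarith
  nlinarith [ceil_le (R := R) hε h1]

/-- A bump function of the plane. -/
noncomputable def bump : ContDiffBump (0 : ℝ × ℝ) := ⟨1, 2, one_pos, one_lt_two⟩

theorem bump_zero {a z : ℝ × ℝ} {R : ℝ} (hR : ‖a‖ + 2 ≤ R) (hz : R ≤ ‖z‖) : bump (z - a) = 0 :=
  bump.zero_of_le_dist (by
    rw [dist_zero_right]
    linarith [norm_sub_norm_le z a, show bump.rOut = 2 from rfl])

theorem bump_mass {ε R : ℝ} (hε : 0 < ε) (h1 : ε ≤ 1 / 2) {a : ℝ × ℝ} (hR : ‖a‖ + 2 ≤ R) :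
    1 / 4 ≤ ε ^ 2 * ∑ x ∈ sq ε R, bump ((ε * x.1, ε * x.2) - a) := by
  set L := ⌊1 / ε⌋ with hL
  have hL1 : ε * L ≤ 1 := (le_div_iff₀' hε).1 (Int.floor_le _)
  have hL2 : 1 / 2 ≤ ε * L := by
    have := (div_lt_iff₀' hε).1 (Int.lt_floor_add_one (1 / ε))
    linarith
  have hL0 : 0 ≤ L := Int.floor_nonneg.2 (by positivity)
  have h2 : ∀ (t : ℝ) (z : ℤ), z ∈ Ico ⌈t / ε⌉ (⌈t / ε⌉ + L) → ‖ε * z - t‖ ≤ 1 := fun t z hz => by
    obtain ⟨h3, h4⟩ := mem_Ico.1 hz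
    have h5 : t ≤ ε * z := (div_le_iff₀' hε).1 (Int.ceil_le.1 h3)
    have h6 : (z : ℝ) + 1 ≤ ⌈t / ε⌉ + L := by exact_mod_cast h4
    have h7 := mul_le_mul_of_nonneg_left (Int.ceil_lt_add_one (t / ε)).le hε.le
    rw [mul_add, mul_div_cancel₀ _ hε.ne'] at h7
    rw [norm_of_nonneg (sub_nonneg.2 h5)]
    nlinarith
  set Q := Ico ⌈a.1 / ε⌉ (⌈a.1 / ε⌉ + L) ×ˢ Ico ⌈a.2 / ε⌉ (⌈a.2 / ε⌉ + L) with hQ
  have h3 : ∀ x ∈ Q, bump ((ε * x.1, ε * x.2) - a) = 1 := fun x hx =>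
    bump.one_of_mem_closedBall (mem_closedBall_zero_iff.2
      (max_le (h2 _ _ (mem_product.1 hx).1) (h2 _ _ (mem_product.1 hx).2)))
  have h4 : Q ⊆ sq ε R := fun x hx => mem_sq hε (lt_of_not_ge fun h =>
    one_ne_zero ((h3 x hx).symm.trans (bump_zero hR h)))
  have h5 : (#Q : ℝ) = L ^ 2 := by
    have : ((#Q : ℕ) : ℤ) = L ^ 2 := by
      rw [hQ, card_product, Nat.cast_mul, Int.card_Ico_of_le _ _ (by omega),
        Int.card_Ico_of_le _ _ (by omega)]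
      ring
    exact_mod_cast this
  have h6 := sum_le_sum_of_subset_of_nonneg (f := fun x : ℤ × ℤ => bump ((ε * x.1, ε * x.2) - a)) h4
    fun _ _ _ => bump.nonneg
  rw [sum_congr rfl h3, sum_const, nsmul_eq_mul, mul_one, h5] at h6
  calc (1 / 4 : ℝ) ≤ ε ^ 2 * L ^ 2 := by nlinarith
    _ ≤ _ := by gcongr

/-- The test function in the direction `i`. -/
noncomputable def tf (i : Fin n) (z : ℝ × ℝ) : P163.E n := bump z • EuclideanSpace.single i 1

theorem tf_test (i : Fin n) (a : ℝ × ℝ) : IsTest fun z => tf i (z - a) :=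
  ⟨(bump.contDiff.comp (contDiff_id.sub contDiff_const)).smul contDiff_const,
    HasCompactSupport.intro (isCompact_closedBall 0 (‖a‖ + 2)) fun z hz => by
      rw [tf, bump_zero le_rfl (le_of_not_ge fun h => hz (mem_closedBall_zero_iff.2 h)), zero_smul]⟩

theorem two_point {μ : Measure (ℤ × ℤ → Sph n)} [IsProbabilityMeasure μ] {ε θ : ℝ} (hε : 0 < ε)
    (h1 : ε ≤ 1 / 2) (hθ : 0 ≤ θ) (c : ℝ) (a : ℝ × ℝ)
    (h : ∀ x y, ε * len x y ≤ 4 * (‖a‖ + 3) → θ ≤ ∫ σ, dot (σ x) (σ y) ∂μ) :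
    c ^ 2 * θ / 16 ≤
      ∑ i, ∫ σ, field c ε (fun z => tf i (z - 0)) σ * field c ε (fun z => tf i (z - a)) σ ∂μ := by
  have h0 : ‖(0 : ℝ × ℝ)‖ + 2 ≤ ‖a‖ + 2 := by simp
  have h2 : ∀ (i : Fin n) {b : ℝ × ℝ}, ‖b‖ + 2 ≤ ‖a‖ + 2 → ∀ σ, field c ε (fun z => tf i (z - b)) σ =
      c * ε ^ 2 * ∑ x ∈ sq ε (‖a‖ + 2), bump ((ε * x.1, ε * x.2) - b) * (σ x).1 i :=
    fun i b hb σ => by
      rw [field_eq hε c fun z hz => by rw [tf, bump_zero hb hz, zero_smul]]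
      simp [tf, inner_smul_left, EuclideanSpace.inner_single_left]
  simp only [h2 _ h0, h2 _ le_rfl]
  rw [← integral_finsetSum _ fun i _ => int_cont _ (by fun_prop)]
  have h3 : ∀ σ : ℤ × ℤ → Sph n, ∑ i,
      (c * ε ^ 2 * ∑ x ∈ sq ε (‖a‖ + 2), bump ((ε * x.1, ε * x.2) - 0) * (σ x).1 i) *
      (c * ε ^ 2 * ∑ x ∈ sq ε (‖a‖ + 2), bump ((ε * x.1, ε * x.2) - a) * (σ x).1 i) =
      (c * ε ^ 2) ^ 2 * ∑ x ∈ sq ε (‖a‖ + 2), ∑ y ∈ sq ε (‖a‖ + 2), bump ((ε * x.1, ε * x.2) - 0) *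
        bump ((ε * y.1, ε * y.2) - a) * dot (σ x) (σ y) := fun σ => by
    generalize c * ε ^ 2 = d
    simp only [mul_mul_mul_comm d _ d, ← mul_sum, sum_mul_sum, _root_.sq]
    congr 1
    simp only [sum_comm (s := (univ : Finset (Fin n))), dot_sum, mul_sum]
    exact sum_congr rfl fun x _ => sum_congr rfl fun y _ => sum_congr rfl fun i _ => by ring
  have hc := fun x y : ℤ × ℤ => continuous_dot' (n := n) x y
  simp only [h3]
  rw [integral_const_mul, integral_finsetSum _ fun x _ => int_cont _ (by fun_prop)]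
  have h4 := mul_le_mul (bump_mass hε h1 h0) (bump_mass hε h1 (le_refl (‖a‖ + 2))) (by norm_num)
    (le_trans (by norm_num) (bump_mass hε h1 h0))
  calc _ = c ^ 2 * θ * (1 / 4 * (1 / 4)) := by ring
    _ ≤ _ := mul_le_mul_of_nonneg_left h4 (by positivity)
    _ = (c * ε ^ 2) ^ 2 * ∑ x ∈ sq ε (‖a‖ + 2), ∑ y ∈ sq ε (‖a‖ + 2),
        bump ((ε * x.1, ε * x.2) - 0) * bump ((ε * y.1, ε * y.2) - a) * θ := by
      simp only [← sum_mul, ← sum_mul_sum]
      ring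
    _ ≤ _ := by
      gcongr with x hx
      rw [integral_finsetSum _ fun y _ => int_cont _ (by fun_prop)]
      gcongr with y hy
      rw [integral_const_mul]
      exact mul_le_mul_of_nonneg_left (h x y ((len_sq hε (by linarith) hx hy).trans_eq (by ring)))
        (mul_nonneg bump.nonneg bump.nonneg)

theorem no_cluster {ε c : ℕ → ℝ} {μ : ℕ → Measure (ℤ × ℤ → Sph n)}
    {S : (ℝ × ℝ → P163.E n) → (ℝ × ℝ → P163.E n) → ℝ} (hμ : ∀ k, IsProbabilityMeasure (μ k))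
    (hε : ∀ k, 0 < ε k) (h0 : Tendsto ε atTop (𝓝 0))
    (hS : ∀ f g, IsTest f → IsTest g → Tendsto
      (fun k => ∫ σ, field (c k) (ε k) f σ * field (c k) (ε k) g σ ∂μ k) atTop (𝓝 (S f g)))
    (hne : ∃ f g, IsTest f ∧ IsTest g ∧ S f g ≠ 0)
    (hcl : ∀ f g, IsTest f → IsTest g →
      Tendsto (fun a => S f fun z => g (z - a)) (cocompact (ℝ × ℝ)) (𝓝 0))
    {θ : ℝ} (hθ : 0 < θ) {u : ℕ → ℝ} (H : ∀ R, ∃ B, ∀ k, ε k ≤ 1 → B ≤ u k →
      ∀ x y, ε k * len x y ≤ R → θ ≤ ∫ σ, dot (σ x) (σ y) ∂μ k) : BddAbove (Set.range u) := by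
  by_contra hu
  have hfr : ∀ B, ∃ᶠ k in atTop, B ≤ u k := fun B h => hu
    (isBoundedUnder_of_eventually_le (a := B) (h.mono fun k hk => le_of_not_ge hk)).bddAbove_range
  obtain ⟨f, g, hf, hg, hne⟩ := hne
  obtain ⟨M, hM, h1⟩ := field_bound hf
  obtain ⟨N, hN, h2⟩ := field_bound hg
  have he : ∀ᶠ k in atTop, ε k ≤ 1 / 2 := h0.eventually_le_const (by norm_num)
  have hc : ∀ᶠ k in atTop, |S f g| / 2 / (M * N) ≤ c k ^ 2 := by
    filter_upwards [he, (hS f g hf hg).abs.eventually_const_le (half_lt_self (abs_pos.2 hne))]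
      with k e1 e2
    have := hμ k
    rw [div_le_iff₀ (by positivity)]
    refine e2.trans ?_
    have h3 := norm_integral_le_of_norm_le_const (μ := μ k) (C := c k ^ 2 * (M * N))
      (f := fun σ => field (c k) (ε k) f σ * field (c k) (ε k) g σ) (Eventually.of_forall fun σ => by
        rw [Real.norm_eq_abs, abs_mul, ← sq_abs, _root_.sq, mul_mul_mul_comm]
        exact mul_le_mul (h1 _ _ (hε k) (by linarith) σ) (h2 _ _ (hε k) (by linarith) σ)
          (abs_nonneg _) (by positivity))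
    simpa using h3
  have h3 : ∀ a : ℝ × ℝ, |S f g| / 2 / (M * N) * θ / 16 ≤
      ∑ i, S (fun z => tf i (z - 0)) fun z => tf i (z - a) := fun a => by
    obtain ⟨B, hB⟩ := H (4 * (‖a‖ + 3))
    refine isClosed_Ici.mem_of_frequently_of_tendsto ?_
      (tendsto_finsetSum _ fun i _ => hS _ _ (tf_test i 0) (tf_test i a))
    refine ((hfr B).and_eventually (he.and hc)).mono fun k ⟨e1, e2, e3⟩ => ?_
    have := hμ k
    refine le_trans ?_ (two_point (hε k) e2 hθ.le (c k) a (hB k (by linarith) e1))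
    gcongr
  have h4 := tendsto_finsetSum univ fun (i : Fin n) _ => hcl _ _ (tf_test i 0) (tf_test i 0)
  simp only [sub_zero, sum_const_zero] at h3 h4
  have h5 := ge_of_tendsto' h4 h3
  have h6 := abs_pos.2 hne
  exact absurd h5 (not_le.2 (by positivity))

theorem scale (hn : 1 ≤ n) {β ε c : ℕ → ℝ} {μ : ℕ → Measure (ℤ × ℤ → Sph n)}
    {S : (ℝ × ℝ → P163.E n) → (ℝ × ℝ → P163.E n) → ℝ}
    (h : ∀ k, 0 < β k ∧ 0 < ε k ∧ IsState n (β k) (μ k)) (h0 : Tendsto ε atTop (𝓝 0))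
    (hS : ∀ f g, IsTest f → IsTest g → Tendsto
      (fun k => ∫ σ, field (c k) (ε k) f σ * field (c k) (ε k) g σ ∂μ k) atTop (𝓝 (S f g)))
    (hne : ∃ f g, IsTest f ∧ IsTest g ∧ S f g ≠ 0)
    (hcl : ∀ f g, IsTest f → IsTest g →
      Tendsto (fun a => S f fun z => g (z - a)) (cocompact (ℝ × ℝ)) (𝓝 0)) :
    BddAbove (Set.range fun k => ε k * √(β k)) ∧ ((∀ k, IsEvenState n (β k) (μ k)) →
      BddAbove (Set.range fun k => ε k * exp (β k / (800 * n)))) := by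
  have : NeZero n := ⟨by omega⟩
  have hp : ∀ k, IsProbabilityMeasure (μ k) := fun k =>
    let ⟨_, _, _, h⟩ := (h k).2.2
    h.2.1
  refine ⟨?_, fun he => no_cluster hp (fun k => (h k).2.1) h0 hS hne hcl one_half_pos fun R =>
    ⟨R + 2, fun k e1 e2 x y e3 => le_trans ?_ (aligned (he k) (h k).1 x y)⟩⟩
  · obtain ⟨c, K, hc, hK, H⟩ := lower hn
    refine no_cluster hp (fun k => (h k).2.1) h0 hS hne hcl (mul_pos hc (exp_pos (-1))) fun R =>
      ⟨K * R, fun k _ e2 x y e3 => le_trans ?_ (((H _ (h k).1).2 _ (h k).2.2).1 x y)⟩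
    have h1 := sqrt_pos.2 (h k).1
    rw [neg_mul]
    gcongr
    rw [div_mul_eq_mul_div, div_le_one h1]
    refine le_of_mul_le_mul_left ?_ (h k).2.1
    nlinarith [mul_le_mul_of_nonneg_left e3 hK]
  · have hn' : (0 : ℝ) < n := Nat.cast_pos.2 hn
    have hl : 0 ≤ len x y := sqrt_nonneg _
    have h1 : log (2 + len x y) ≤ β k / (800 * n) := by
      rw [log_le_iff_le_exp (by positivity)]
      exact le_of_mul_le_mul_left (by linarith) (h k).2.1
    have h2 : 400 * n * log (2 + len x y) / β k ≤ 1 / 2 := by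
      rw [div_le_iff₀ (h k).1]
      calc _ ≤ 400 * n * (β k / (800 * n)) := by gcongr
        _ = _ := by field_simp; ring
    linarith

end Vale.Agent.N163X

end
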